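import Crest.Agent.N250.Re.Basic
import Crest.Agent.N250.A.Good

/-!
# Row 250 (helper88): reach gives a lower bound for the area

`cover`: a slice with reach `ρ` near `x` projects onto a disc of the tangent plane at `x`.
`area_lower`: `μ_t (B(x, r)) ≥ r² / 32` for `r ≤ ρ`.
-/

set_option autoImplicit false
open MeasureTheory Set Filter Topology Metric
open scoped ContDiff InnerProductSpace ENNReal NNReal
open Crest.GeometryTopology.MCF

noncomputable section

namespace Crest.Agent.N250.Sg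

variable {F : Mv} {t ρ r : ℝ} {x z q : E}

/-- at a locally nearest point of the slice the difference is normal -/
theorem near_normal (hF : F.Reg) (hz : z ∈ F.sl t)
    (hm : ∀ᶠ y in 𝓝 z, y ∈ F.sl t → ‖q - z‖ ≤ ‖q - y‖) :
    q - z = ⟪F.n (z, t), q - z⟫_ℝ • F.n (z, t) := by
  obtain ⟨U, π, hr⟩ := hF.exists_retr (p := (z, t)) hz
  have d := ((hr.sm.contDiffAt (hr.isOpen.mem_nhds hr.mem)).differentiableAt (by simp)).hasFDerivAt
  have d0 : HasFDerivAt (fun y : E => ((y, t) : ST)) (ContinuousLinearMap.inl ℝ E ℝ) z :=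
    hasFDerivAt_prodMk_left z t
  have dg : HasFDerivAt (fun y : E => (π (y, t)).1) ((ContinuousLinearMap.fst ℝ E ℝ).comp
      ((fderiv ℝ π (z, t)).comp (ContinuousLinearMap.inl ℝ E ℝ))) z :=
    (HasFDerivAt.comp z (g := π) (f := fun y : E => ((y, t) : ST)) d d0).fst
  have gz : (π (z, t)).1 = z := by rw [hr.fix _ hr.mem hz]
  have hmin : IsLocalMin (fun y : E => ‖q - (π (y, t)).1‖ ^ 2) z := by
    have c : Tendsto (fun y : E => (π (y, t)).1) (𝓝 z) (𝓝 z) := by
      have := dg.continuousAt.tendsto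
      rwa [gz] at this
    filter_upwards [c.eventually hm, d0.continuousAt.eventually (hr.isOpen.mem_nhds hr.mem)]
      with y h1 h2
    have h3 : (π (y, t)).1 ∈ F.sl t := by
      have a := hr.maps h2
      have b : (π (y, t)).2 = t := hr.time _ h2
      have e : ((π (y, t)).1, t) = π (y, t) := Prod.ext rfl b.symm
      change ((π (y, t)).1, t) ∈ F.M
      rw [e]; exact a
    rw [gz]
    exact pow_le_pow_left₀ (norm_nonneg _) (h1 h3) 2
  have e := hmin.hasFDerivAt_eq_zero (((hasFDerivAt_const q z).sub dg).norm_sq)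
  set v := F.PL (z, t) (q - z) with hv
  have e1 := congrArg (fun L : E →L[ℝ] ℝ => L v) e
  have e2 : fderiv ℝ π (z, t) (v, 0) = (v, 0) := hr.der _ (hF.tg_PL hz _)
  have e3 : ⟪q - z, v⟫_ℝ = 0 := by
    have : ⟪z, v⟫_ℝ - ⟪q, v⟫_ℝ = 0 := by simpa [e2, gz] using e1
    rw [inner_sub_left]; linarith
  have e4 : ⟪F.n (z, t), v⟫_ℝ = 0 := by
    have := hF.tg_PL hz (q - z)
    simpa [Mv.Tg] using this
  have e5 : ⟪v, v⟫_ℝ = 0 := by
    have : ⟪q - z - ⟪F.n (z, t), q - z⟫_ℝ • F.n (z, t), v⟫_ℝ = 0 := by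
      rw [inner_sub_left, real_inner_smul_left, e3, e4]; ring
    exact this
  exact sub_eq_zero.1 (inner_self_eq_zero.1 e5)

/-- inside the reach the foot point is the unique nearest point -/
theorem uniq_of_reach {l : ℝ} {y : E} (hR : F.Reach (z, t) ρ) (hn : ‖F.n (z, t)‖ = 1)
    (hq : q - z = l • F.n (z, t)) (hl : |l| < ρ) (hy : y ∈ F.sl t) (h : ‖q - y‖ ≤ ‖q - z‖) :
    y = z := by
  have hρ : 0 < ρ := (abs_nonneg l).trans_lt hl
  obtain ⟨h1, h2⟩ := hR y hy
  rw [dist_eq_norm] at h1 h2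
  have e1 : y - (z + ρ • F.n (z, t)) = (y - z) - ρ • F.n (z, t) := by abel
  have e2 : y - (z - ρ • F.n (z, t)) = (y - z) + ρ • F.n (z, t) := by abel
  have e3 : q - y = l • F.n (z, t) - (y - z) := by rw [← hq]; abel
  simp only at h1 h2
  rw [e1] at h1; rw [e2] at h2; rw [e3, hq] at h
  set v := y - z with hv
  have a1 := pow_le_pow_left₀ hρ.le h1 2
  have a2 := pow_le_pow_left₀ hρ.le h2 2
  have a3 := pow_le_pow_left₀ (norm_nonneg _) h 2
  rw [norm_sub_sq_real, norm_smul, inner_smul_right, hn, Real.norm_eq_abs, abs_of_pos hρ] at a1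
  rw [norm_add_sq_real, norm_smul, inner_smul_right, hn, Real.norm_eq_abs, abs_of_pos hρ] at a2
  rw [norm_sub_sq_real, real_inner_smul_left, real_inner_comm] at a3
  simp only [mul_one] at a1 a2
  set a := ⟪v, F.n (z, t)⟫_ℝ
  have b1 : 2 * ρ * |a| ≤ ‖v‖ ^ 2 := by
    rcases abs_cases a with h | h <;> rw [h.1] <;> nlinarith
  have b2 : ‖v‖ ^ 2 ≤ 2 * (|l| * |a|) := by
    have := le_abs_self (l * a)
    rw [abs_mul] at this
    nlinarith
  have b3 : |a| ≤ 0 := by nlinarith [abs_nonneg a]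
  have b4 : ‖v‖ ^ 2 ≤ 0 := by nlinarith [abs_nonneg a, abs_nonneg l]
  have b5 : ‖v‖ = 0 := by nlinarith [norm_nonneg v]
  exact sub_eq_zero.1 (norm_eq_zero.1 b5)

/-- every normal segment over the tangent disc of radius `r / 8` meets the slice -/
theorem cover (hF : F.Reg) (hx : x ∈ F.sl t) (hr : 0 < r) (hρ : r ≤ ρ)
    (hc : ∀ y ∈ closure (F.sl t), y ∈ ball x r → y ∈ F.sl t)
    (hR : ∀ y ∈ F.sl t, y ∈ ball x r → F.Reach (y, t) ρ) {w : E}
    (hw : ⟪F.n (x, t), w⟫_ℝ = 0) (hw' : ‖w‖ ≤ r / 8) :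
    ∃ l : ℝ, |l| ≤ r / 8 ∧ x + w + l • F.n (x, t) ∈ F.sl t := by
  by_contra hno
  push Not at hno
  set K := F.sl t ∩ closedBall x (3 * r / 4) with hK
  have hKb : ∀ y ∈ K, y ∈ ball x r := fun y hy => closedBall_subset_ball (by linarith) hy.2
  have hKc : IsClosed K := isClosed_of_closure_subset fun y hy => by
    have h2 := isClosed_closedBall.closure_subset (closure_mono inter_subset_right hy)
    exact ⟨hc y (closure_mono inter_subset_left hy) (closedBall_subset_ball (by linarith) h2), h2⟩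
  have hKK : IsCompact K := (isCompact_closedBall x _).of_isClosed_subset hKc inter_subset_right
  have hxK : x ∈ K := ⟨hx, mem_closedBall_self (by linarith)⟩
  set B := closedBall x (r / 4) with hB
  set ν := F.n (x, t) with hν
  have hν1 : ‖ν‖ = 1 := hF.norm_n hx
  have hnor : ∀ q ∈ B, ∀ z ∈ K, (∀ y ∈ K, ‖q - z‖ ≤ ‖q - y‖) →
      q - z = ⟪F.n (z, t), q - z⟫_ℝ • F.n (z, t) ∧ |⟪F.n (z, t), q - z⟫_ℝ| < ρ := by
    intro q hq z hz hm
    have h1 : ‖q - x‖ ≤ r / 4 := mem_closedBall_iff_norm.1 hq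
    have h2 := hm x hxK
    have h3 : z ∈ ball x (3 * r / 4) := by
      rw [mem_ball_iff_norm]
      have : z - x = (q - x) - (q - z) := by abel
      rw [this]
      linarith [norm_sub_le (q - x) (q - z)]
    refine ⟨near_normal hF hz.1 ?_, ?_⟩
    · filter_upwards [isOpen_ball.mem_nhds h3] with y hy hy'
      exact hm y ⟨hy', ball_subset_closedBall hy⟩
    · have := abs_real_inner_le_norm (F.n (z, t)) (q - z)
      rw [hF.norm_n (p := (z, t)) hz.1] at this
      linarith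
  set C : ℝ → Set E := fun σ => {q | q ∈ B ∧ ∃ z ∈ K, (∀ y ∈ K, ‖q - z‖ ≤ ‖q - y‖) ∧
    0 ≤ σ * ⟪F.n (z, t), q - z⟫_ℝ} with hC
  have hCc : ∀ σ, IsClosed (C σ) := by
    intro σ
    have s1 : IsCompact (B ×ˢ K) := (isCompact_closedBall x _).prod hKK
    have c1 : ContinuousOn (fun a : E × E => F.n (a.2, t)) (B ×ˢ K) :=
      hF.sm_n.continuousOn.comp (by fun_prop) fun a ha => ha.2.1
    have c2 : ContinuousOn (fun a : E × E => σ * ⟪F.n (a.2, t), a.1 - a.2⟫_ℝ) (B ×ˢ K) :=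
      continuousOn_const.mul (c1.inner (by fun_prop))
    have c3 := c2.preimage_isClosed_of_isClosed s1.isClosed (isClosed_Ici (a := (0 : ℝ)))
    have c4 : IsClosed (⋂ y ∈ K, {a : E × E | ‖a.1 - a.2‖ ≤ ‖a.1 - y‖}) :=
      isClosed_biInter fun y _ => isClosed_le (by fun_prop) (by fun_prop)
    have c5 := (s1.of_isClosed_subset (c3.inter c4) fun a ha => ha.1.1).image continuous_fst
    convert c5.isClosed using 1
    ext q
    constructor
    · rintro ⟨h1, z, h2, h3, h4⟩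
      exact ⟨(q, z), ⟨⟨⟨h1, h2⟩, h4⟩, mem_iInter₂.2 h3⟩, rfl⟩
    · rintro ⟨⟨q, z⟩, ⟨⟨⟨h1, h2⟩, h4⟩, h3⟩, rfl⟩
      exact ⟨h1, z, h2, mem_iInter₂.1 h3, h4⟩
  have hcov : B ⊆ C 1 ∪ C (-1) := by
    intro q hq
    obtain ⟨z, hz, hm⟩ := hKK.exists_isMinOn ⟨x, hxK⟩
      (f := fun y => ‖q - y‖) (Continuous.continuousOn (by fun_prop))
    rcases le_total 0 ⟪F.n (z, t), q - z⟫_ℝ with h | h
    · exact Or.inl ⟨hq, z, hz, fun y hy => hm hy, by linarith⟩
    · exact Or.inr ⟨hq, z, hz, fun y hy => hm hy, by linarith⟩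
  have hint : ∀ q ∈ C 1, q ∈ C (-1) → q ∈ F.sl t := by
    rintro q ⟨hq, z, hz, hm, h1⟩ ⟨-, z', hz', hm', h2⟩
    obtain ⟨a1, a2⟩ := hnor q hq z hz hm
    have e : z' = z := uniq_of_reach (hR z hz.1 (hKb z hz)) (hF.norm_n (p := (z, t)) hz.1) a1 a2
      hz'.1 (hm' z hz)
    rw [e] at h2
    have h0 : ⟪F.n (z, t), q - z⟫_ℝ = 0 := by linarith
    rw [h0, zero_smul, sub_eq_zero] at a1
    rw [a1]; exact hz.1
  have hRx := hR x hx (mem_ball_self hr)
  have hpole : ∀ σ : ℝ, |σ| = 1 → x + (σ * (r / 8)) • ν ∉ C (-σ) := by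
    rintro σ hσ ⟨-, z, hz, hm, h1⟩
    have e0 : x + (σ * (r / 8)) • ν - x = (σ * (r / 8)) • ν := by abel
    have e : z = x := uniq_of_reach hRx hν1 e0
      (by rw [abs_mul, hσ, abs_of_pos (by linarith)]; linarith) hz.1 (hm x hxK)
    rw [e, e0, inner_smul_right, ← hν, real_inner_self_eq_norm_sq, hν1] at h1
    have : σ ^ 2 = 1 := by rw [← sq_abs, hσ]; norm_num
    nlinarith
  have hin : ∀ (σ : ℝ) (u : E), |σ| = 1 → ⟪ν, u⟫_ℝ = 0 → ‖u‖ ≤ r / 8 →
      x + u + (σ * (r / 8)) • ν ∈ ball (x + (σ * ρ) • ν) ρ := by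
    intro σ u hσ h1 h2
    have e : x + u + (σ * (r / 8)) • ν - (x + (σ * ρ) • ν) = u + (σ * (r / 8 - ρ)) • ν := by
      rw [mul_sub, sub_smul]; abel
    have hσ2 : σ ^ 2 = 1 := by rw [← sq_abs, hσ]; norm_num
    rw [mem_ball_iff_norm, e]
    refine lt_of_pow_lt_pow_left₀ 2 (by linarith) ?_
    rw [norm_add_sq_real, inner_smul_right, real_inner_comm, h1, norm_smul, hν1, mul_one,
      Real.norm_eq_abs, sq_abs, mul_pow, hσ2]
    have := pow_le_pow_left₀ (norm_nonneg _) h2 2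
    nlinarith
  have hinB : ∀ (l : ℝ) (u : E), |l| ≤ r / 8 → ‖u‖ ≤ r / 8 → x + u + l • ν ∈ B := by
    intro l u h1 h2
    have e : x + u + l • ν - x = u + l • ν := by abel
    rw [hB, mem_closedBall_iff_norm, e]
    have := norm_add_le u (l • ν)
    rw [norm_smul, hν1, mul_one, Real.norm_eq_abs] at this
    linarith
  have h8 : ∀ σ : ℝ, |σ| = 1 → |σ * (r / 8)| ≤ r / 8 := fun σ hσ => by
    rw [abs_mul, hσ, one_mul, abs_of_pos (by linarith)]
  set D : ℝ → Set E := fun σ => ball (x + (σ * ρ) • ν) ρ ∩ B with hD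
  have hDc : ∀ σ, IsPreconnected (D σ) := fun σ =>
    ((convex_ball _ _).inter (convex_closedBall _ _)).isPreconnected
  set V : Set E := (fun l : ℝ => x + w + l • ν) '' Icc (-(r / 8)) (r / 8) with hV
  have hVc : IsPreconnected V := isPreconnected_Icc.image _ (Continuous.continuousOn (by fun_prop))
  have hVm : ∀ σ : ℝ, |σ| = 1 → x + w + (σ * (r / 8)) • ν ∈ V := fun σ hσ =>
    ⟨_, abs_le.1 (h8 σ hσ), rfl⟩
  have hDm : ∀ (σ : ℝ) (u : E), |σ| = 1 → ⟪ν, u⟫_ℝ = 0 → ‖u‖ ≤ r / 8 →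
      x + u + (σ * (r / 8)) • ν ∈ D σ := fun σ u hσ h1 h2 =>
    ⟨hin σ u hσ h1 h2, hinB _ u (h8 σ hσ) h2⟩
  have p1 : |(1 : ℝ)| = 1 := abs_one
  have m1 : |(-1 : ℝ)| = 1 := by simp
  have hS : IsPreconnected ((D 1 ∪ V) ∪ D (-1)) :=
    ((hDc 1).union _ (hDm 1 w p1 hw hw') (hVm 1 p1) hVc).union _ (Or.inr (hVm (-1) m1))
      (hDm (-1) w m1 hw hw') (hDc (-1))
  have hSB : (D 1 ∪ V) ∪ D (-1) ⊆ B := by
    rintro q ((h | ⟨l, hl, rfl⟩) | h)
    · exact h.2
    · exact hinB l w (abs_le.2 hl) hw'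
    · exact h.2
  have hSn : ∀ q ∈ (D 1 ∪ V) ∪ D (-1), q ∉ F.sl t := by
    rintro q ((h | ⟨l, hl, rfl⟩) | h) hq
    · have := (hRx q hq).1
      have h' := mem_ball.1 h.1
      rw [one_mul] at h'
      exact absurd h' (not_lt.2 this)
    · exact hno l (abs_le.2 hl) hq
    · have := (hRx q hq).2
      have h' := mem_ball.1 h.1
      rw [neg_one_mul, neg_smul, ← sub_eq_add_neg] at h'
      exact absurd h' (not_lt.2 this)
  have z0 : ‖(0 : E)‖ ≤ r / 8 := by rw [norm_zero]; linarith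
  rcases isPreconnected_iff_subset_of_disjoint_closed.1 hS _ _ (hCc 1) (hCc (-1)) (hSB.trans hcov)
    (eq_empty_of_forall_notMem fun q hq => hSn q hq.1 (hint q hq.2.1 hq.2.2)) with h | h
  · have a := h (Or.inr (hDm (-1) 0 m1 (inner_zero_right _) z0))
    rw [add_zero] at a
    exact hpole (-1) m1 (by rwa [neg_neg])
  · have a := h (Or.inl (Or.inl (hDm 1 0 p1 (inner_zero_right _) z0)))
    rw [add_zero] at a
    exact hpole 1 p1 a

/-- **area lower bound** -/
theorem area_lower (hF : F.Reg) (hx : x ∈ F.sl t) (hr : 0 < r) (hρ : r ≤ ρ)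
    (hc : ∀ y ∈ closure (F.sl t), y ∈ ball x r → y ∈ F.sl t)
    (hR : ∀ y ∈ F.sl t, y ∈ ball x r → F.Reach (y, t) ρ) :
    ENNReal.ofReal (r ^ 2 / 32) ≤ F.mu t (ball x r) := by
  set ν := F.n (x, t) with hν
  have hν1 : ‖ν‖ = 1 := hF.norm_n hx
  have hν0 : ν ≠ 0 := by rintro h; rw [h] at hν1; simp at hν1
  have : Fact (Module.finrank ℝ E = 2 + 1) := ⟨by simp⟩
  set P : Submodule ℝ E := (ℝ ∙ ν)ᗮ with hPd
  have hP : Module.finrank ℝ P = 2 := Submodule.finrank_orthogonal_span_singleton hν0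
  set π : E →L[ℝ] P := P.orthogonalProjectionOnto with hπ
  have hv : (μHE[2] : Measure P) = volume := by
    rw [← hP]; exact InnerProductSpace.euclideanHausdorffMeasure_eq_volume
  have lip : LipschitzWith 1 π := LipschitzWith.of_dist_le_mul fun a b => by
    rw [dist_eq_norm, dist_eq_norm, ← map_sub, NNReal.coe_one, one_mul]
    exact P.norm_orthogonalProjectionOnto_apply_le _
  have sub : ball (π x) (r / 8) ⊆ π '' (ball x r ∩ F.sl t) := by
    intro u hu
    have h1 : ‖((u - π x : P) : E)‖ ≤ r / 8 := (mem_ball_iff_norm.1 hu).le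
    obtain ⟨l, hl, hm⟩ := cover hF hx hr hρ hc hR
      (Submodule.mem_orthogonal_singleton_iff_inner_right.1 (u - π x).2) h1
    refine ⟨_, ⟨?_, hm⟩, ?_⟩
    · have e : x + ((u - π x : P) : E) + l • ν - x = ((u - π x : P) : E) + l • ν := by abel
      rw [mem_ball_iff_norm, ← hν, e]
      have := norm_add_le ((u - π x : P) : E) (l • ν)
      rw [norm_smul, hν1, mul_one, Real.norm_eq_abs] at this
      linarith
    · have e1 : π ((u - π x : P) : E) = u - π x := P.orthogonalProjectionOnto_mem_subspace_eq_self _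
      have e2 : π ν = 0 := Submodule.orthogonalProjectionOnto_orthogonalComplement_singleton_eq_zero ν
      rw [map_add, map_add, map_smul, e1, ← hν, e2, smul_zero]; abel
  have : Nontrivial P := Module.nontrivial_of_finrank_pos (R := ℝ) (by rw [hP]; norm_num)
  have hb : (volume : Measure P) (ball (π x) (r / 8)) = ENNReal.ofReal ((r / 8) ^ 2 * Real.pi) := by
    rw [InnerProductSpace.volume_ball_of_dim_even (k := 1) (by rw [hP]), hP,
      ENNReal.ofReal_mul (by positivity), ENNReal.ofReal_pow (by linarith)]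
    simp
  calc _ ≤ ENNReal.ofReal ((r / 8) ^ 2 * Real.pi) :=
        ENNReal.ofReal_le_ofReal (by nlinarith [Real.pi_gt_three, sq_nonneg r])
    _ = (μHE[2] : Measure P) (ball (π x) (r / 8)) := by rw [hv, hb]
    _ ≤ (μHE[2] : Measure P) (π '' (ball x r ∩ F.sl t)) := measure_mono sub
    _ ≤ _ := by
      refine (A.muHE_image_le lip.lipschitzOnWith).trans (le_of_eq ?_)
      rw [Mv.mu, Measure.restrict_apply measurableSet_ball]; simp

end Crest.Agent.N250.Sg

end
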