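import Crest.Agent.N250.Sg.Base
import Crest.Agent.N250.FV.Main

/-!
# Row 250, static Gaussian estimate (helper9), part 2: cut-offs, Cauchy–Schwarz, the energy
identity, local coercivity implies global coercivity
-/

set_option autoImplicit false
open MeasureTheory Set Filter Topology
open scoped ContDiff InnerProductSpace
open Crest.GeometryTopology.MCF

noncomputable section

namespace Crest.Agent.N250.Sg

variable {F : Mv} {t : ℝ} {p : ST} {u v w f g q : ST → ℝ}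

/-- cut-off: `1` on `B_{r-1}`, `0` off `B_r` -/
def cut (r : ℝ) (p : ST) : ℝ := Real.smoothTransition ((r ^ 2 - ‖p.1‖ ^ 2) / (2 * r - 1))

theorem contDiff_cut (r : ℝ) : ContDiff ℝ ∞ (cut r) :=
  Real.smoothTransition.contDiff.comp ((contDiff_const.sub contDiff_nsq).div_const _)

theorem sm_cut (F : Mv) (r : ℝ) : F.Sm (cut r) := (contDiff_cut r).contDiffOn

theorem cut_nonneg (r : ℝ) (p : ST) : 0 ≤ cut r p := Real.smoothTransition.nonneg _

theorem cut_le (r : ℝ) (p : ST) : cut r p ≤ 1 := Real.smoothTransition.le_one _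

theorem cut_sq_le (r : ℝ) (p : ST) : cut r p ^ 2 ≤ 1 := by
  have := cut_nonneg r p; have := cut_le r p; nlinarith

theorem cut_one {r : ℝ} (hr : 1 ≤ r) (h : ‖p.1‖ ≤ r - 1) : cut r p = 1 := by
  refine Real.smoothTransition.one_of_one_le ?_
  rw [le_div_iff₀ (by linarith)]
  nlinarith [norm_nonneg p.1]

theorem cut_zero {r : ℝ} (hr : 1 ≤ r) (h : r ≤ ‖p.1‖) : cut r p = 0 := by
  refine Real.smoothTransition.zero_of_nonpos (div_nonpos_of_nonpos_of_nonneg ?_ (by linarith))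
  nlinarith

theorem deriv_st_zero {s : ℝ} (h : s < 0 ∨ 1 < s) : deriv Real.smoothTransition s = 0 := by
  rcases h with h | h
  · have : Real.smoothTransition =ᶠ[𝓝 s] fun _ => 0 := (gt_mem_nhds h).mono fun _ hy =>
      Real.smoothTransition.zero_of_nonpos (le_of_lt hy)
    rw [this.deriv_eq, deriv_const]
  · have : Real.smoothTransition =ᶠ[𝓝 s] fun _ => 1 := (lt_mem_nhds h).mono fun _ hy =>
      Real.smoothTransition.one_of_one_le (le_of_lt hy)
    rw [this.deriv_eq, deriv_const]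

theorem exists_st : ∃ C : ℝ, ∀ s, deriv Real.smoothTransition s ^ 2 ≤ C := by
  have hc : Continuous (deriv Real.smoothTransition) :=
    (Real.smoothTransition.contDiff (n := 1)).continuous_deriv le_rfl
  obtain ⟨C, hC⟩ := isCompact_Icc.exists_bound_of_continuousOn (s := Icc (0 : ℝ) 1)
    (hc.pow 2).continuousOn
  refine ⟨max C 0, fun s => ?_⟩
  by_cases h : s ∈ Icc (0 : ℝ) 1
  · exact ((le_abs_self _).trans (hC s h)).trans (le_max_left _ _)
  · rw [deriv_st_zero (by simpa only [mem_Icc, not_and_or, not_le] using h)]; simp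

/-- bound for the gradients of the cut-offs -/
def cutK : ℝ := 16 * Classical.choose exists_st

theorem gam_cut (hF : F.Reg) (hp : p ∈ F.M) (r : ℝ) : F.gam (cut r) (cut r) p =
    deriv Real.smoothTransition ((r ^ 2 - ‖p.1‖ ^ 2) / (2 * r - 1)) ^ 2 *
      (4 * (‖p.1‖ ^ 2 - F.xn 0 p ^ 2) / (2 * r - 1) ^ 2) := by
  have h1 : HasDerivAt (fun s => Real.smoothTransition ((r ^ 2 - s) / (2 * r - 1)))
      (deriv Real.smoothTransition ((r ^ 2 - ‖p.1‖ ^ 2) / (2 * r - 1)) * (-1 / (2 * r - 1)))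
      (‖p.1‖ ^ 2) := by
    refine HasDerivAt.comp (h₂ := Real.smoothTransition) _
      ((Real.smoothTransition.contDiff (n := 1)).differentiable (by simp) _).hasDerivAt ?_
    simpa using ((hasDerivAt_id (‖p.1‖ ^ 2)).const_sub (r ^ 2)).div_const (2 * r - 1)
  have e : ∀ a, F.D a (cut r) p = _ := fun a => D_rad hF hp h1 a
  have e2 := sum_x_nu F p
  have e3 := sum_x_sq p.1
  have e4 := hF.nn hp
  simp only [Mv.gam_apply, e, Fin.sum_univ_three, div_eq_mul_inv, ← inv_pow] at e2 e3 e4 ⊢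
  set d := deriv Real.smoothTransition ((r ^ 2 - ‖p.1‖ ^ 2) * (2 * r - 1)⁻¹)
  set m := (2 * r - 1)⁻¹
  linear_combination (4 * d ^ 2 * m ^ 2) * e3 - (8 * d ^ 2 * m ^ 2 * F.xn 0 p) * e2 +
    (4 * d ^ 2 * m ^ 2 * F.xn 0 p ^ 2) * e4

theorem cutK_nonneg : 0 ≤ cutK :=
  mul_nonneg (by norm_num) ((sq_nonneg _).trans (Classical.choose_spec exists_st 0))

theorem gam_cut_zero (hF : F.Reg) (hp : p ∈ F.M) {r : ℝ} (hr : 1 ≤ r)
    (h : ‖p.1‖ < r - 1 ∨ r < ‖p.1‖) : F.gam (cut r) (cut r) p = 0 := by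
  rw [gam_cut hF hp, deriv_st_zero]; · simp
  rcases h with h | h
  · right; rw [lt_div_iff₀ (by linarith)]; nlinarith [norm_nonneg p.1]
  · left; exact div_neg_of_neg_of_pos (by nlinarith) (by linarith)

theorem gam_cut_le (hF : F.Reg) (hp : p ∈ F.M) {r : ℝ} (hr : 1 ≤ r) :
    F.gam (cut r) (cut r) p ≤ cutK := by
  by_cases h : r < ‖p.1‖
  · rw [gam_cut_zero hF hp hr (Or.inr h)]; exact cutK_nonneg
  rw [gam_cut hF hp, cutK, mul_comm 16]
  have h0 := (sq_nonneg _).trans (Classical.choose_spec exists_st 0)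
  have h1 : 4 * (‖p.1‖ ^ 2 - F.xn 0 p ^ 2) / (2 * r - 1) ^ 2 ≤ 16 := by
    rw [div_le_iff₀ (pow_pos (by linarith) 2)]
    nlinarith [norm_nonneg p.1, sq_nonneg (F.xn 0 p), not_lt.1 h]
  have h2 := Hu.xn_sq_le hF hp 0
  rw [sub_zero] at h2
  exact mul_le_mul (Classical.choose_spec exists_st _) h1 (div_nonneg (by linarith) (sq_nonneg _)) h0

/-- Cauchy–Schwarz -/
theorem IG_cs (hF : F.Reg) {a b : ST → ℝ} (hf : Ig F t f) (ha : Ig F t a) (hb : Ig F t b)
    (h : ∀ x, (x, t) ∈ F.M → 0 ≤ a (x, t) ∧ 0 ≤ b (x, t) ∧ f (x, t) ^ 2 ≤ a (x, t) * b (x, t)) :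
    IG F t f ^ 2 ≤ IG F t a * IG F t b := by
  have key : ∀ l : ℝ, 0 ≤ IG F t a * (l * l) + 2 * IG F t f * l + IG F t b := fun l => by
    have := IG_nonneg (t := t) hF (f := fun p => l * l * a p + 2 * l * f p + b p) fun x hx => by
      obtain ⟨h1, h2, h3⟩ := h x hx
      have : |2 * l * f (x, t)| ≤ l * l * a (x, t) + b (x, t) := by
        refine abs_le_of_sq_le_sq ?_ (add_nonneg (mul_nonneg (mul_self_nonneg l) h1) h2)
        nlinarith [mul_le_mul_of_nonneg_left h3 (mul_self_nonneg l),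
          sq_nonneg (l * l * a (x, t) - b (x, t))]
      linarith [neg_abs_le (2 * l * f (x, t))]
    rw [IG_add ((ha.cmul _).add (hf.cmul _)) hb, IG_add (ha.cmul _) (hf.cmul _), IG_cmul,
      IG_cmul] at this
    linarith
  have := discrim_le_zero key
  rw [discrim] at this
  nlinarith

theorem gam_mul (hF : F.Reg) (hp : p ∈ F.M) (hf : F.Sm f) (hg : F.Sm g) :
    F.gam (fun q => f q * g q) (fun q => f q * g q) p =
      f p ^ 2 * F.gam g g p + 2 * (f p * g p) * F.gam f g p + g p ^ 2 * F.gam f f p := by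
  have e : ∀ a, F.D a (fun q => f q * g q) p = _ := fun a => hF.D_mul hp hf hg a
  simp only [Mv.gam_apply, e, Fin.sum_univ_three]
  ring

theorem gam_mul_left (hF : F.Reg) (hp : p ∈ F.M) (hf : F.Sm f) (hg : F.Sm g) (w : ST → ℝ) :
    F.gam (fun q => f q * g q) w p = f p * F.gam g w p + g p * F.gam f w p := by
  have e : ∀ a, F.D a (fun q => f q * g q) p = _ := fun a => hF.D_mul hp hf hg a
  simp only [Mv.gam_apply, e, Fin.sum_univ_three]
  ring

theorem two_gam_le (f g : ST → ℝ) (p : ST) (a b : ℝ) :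
    2 * (a * b) * F.gam f g p ≤ a ^ 2 * F.gam f f p + b ^ 2 * F.gam g g p := by
  simp only [Mv.gam_apply, Fin.sum_univ_three]
  nlinarith [sq_nonneg (a * F.D 0 f p - b * F.D 0 g p), sq_nonneg (a * F.D 1 f p - b * F.D 1 g p),
    sq_nonneg (a * F.D 2 f p - b * F.D 2 g p)]

/-- `H¹` energy density -/
def e1 (F : Mv) (u : ST → ℝ) (p : ST) : ℝ := u p ^ 2 + F.gam u u p

theorem e1_nonneg (F : Mv) (u : ST → ℝ) (p : ST) : 0 ≤ e1 F u p :=
  add_nonneg (sq_nonneg _) (F.gam_self_nonneg u p)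

theorem Tf.ig_sq (hF : F.Reg) (hu : Tf F t u) : Ig F t fun p => u p ^ 2 :=
  (hu.sq hF).selfG muFinS_holds hF

theorem Tf.ig_gam (hF : F.Reg) (hu : Tf F t u) (hw : F.Sm w) : Ig F t (F.gam u w) :=
  (hu.gam hF hw).selfG muFinS_holds hF

theorem Tf.ig_e1 (hF : F.Reg) (hu : Tf F t u) : Ig F t (e1 F u) :=
  (hu.ig_sq hF).add (hu.ig_gam hF hu.sm)

theorem Tf.ig_mul (hF : F.Reg) (hu : Tf F t u) (hg : ContinuousOn g F.M) :
    Ig F t fun p => u p * g p :=
  hu.intG muFinS_holds hF (hu.sm.continuousOn.mul hg) fun _ _ a _ => by simp [a]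

theorem Tf.ig_mul' (hF : F.Reg) (hu : Tf F t u) (hg : ContinuousOn g F.M) :
    Ig F t fun p => g p * u p := by simpa only [mul_comm] using hu.ig_mul hF hg

theorem Tf.mul' (hF : F.Reg) (h : Tf F t u) (hg : F.Sm g) : Tf F t fun p => g p * u p := by
  simpa only [mul_comm] using h.mul hF hg

theorem IG_e1 (hF : F.Reg) (hu : Tf F t u) :
    IG F t (e1 F u) = IG F t (fun p => u p ^ 2) + IG F t (F.gam u u) :=
  IG_add (hu.ig_sq hF) (hu.ig_gam hF hu.sm)

/-- the energy identity for `χ v` -/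
theorem energy (hF : F.Reg) {χ : ST → ℝ} (hχ : Tf F t χ) (hv : F.Sm v) :
    IG F t (F.gam (fun p => χ p * v p) fun p => χ p * v p) =
      -IG F t (fun p => χ p * (χ p * v p) * L0 F v p) + IG F t fun p => v p ^ 2 * F.gam χ χ p := by
  have h1 := hχ.mul hF (g := fun p => χ p * v p) (hχ.sm.mul hv)
  rw [green muFinS_holds divS_holds hF h1 hv, neg_neg, ← IG_add (h1.ig_gam hF hv)
    ((hχ.gam hF hχ.sm).ig_mul' hF (ContDiffOn.pow hv 2).continuousOn)]
  refine IG_congr hF fun x hx => ?_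
  rw [gam_mul hF hx hχ.sm hv, gam_mul_left hF hx hχ.sm (g := fun p => χ p * v p) (hχ.sm.mul hv),
    gam_mul_left hF hx hχ.sm hv]
  ring

/-- the `L²` mass outside a big ball is small -/
theorem out_le (hF : F.Reg) (hu : Tf F t u) {R : ℝ} (hR : 0 < R) {a : ST → ℝ}
    (ha : ContinuousOn a F.M) {B : ℝ} (hB : 0 ≤ B)
    (h : ∀ x, (x, t) ∈ F.M → a (x, t) ≤ B ∧ (‖x‖ < R → a (x, t) ≤ 0)) :
    IG F t (fun p => u p ^ 2 * a p) ≤
      B / R ^ 2 * (32 * IG F t (e1 F u) + 8 * IG F t fun p => u p ^ 2 * F.shr p ^ 2) := by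
  have h1 := ecker muFinS_holds divS_holds hF hu
  have h2 : IG F t (fun p => u p ^ 2 * a p) ≤
      IG F t fun p => B / R ^ 2 * (u p ^ 2 * ‖p.1‖ ^ 2) := by
    refine IG_mono hF ((hu.sq hF).ig_mul hF ha)
      (((hu.sq hF).ig_mul hF (sm_nsq F).continuousOn).cmul _) fun x hx => ?_
    by_cases hx' : ‖x‖ < R
    · exact (mul_nonpos_of_nonneg_of_nonpos (sq_nonneg _) ((h x hx).2 hx')).trans (by positivity)
    · have : B ≤ B / R ^ 2 * ‖x‖ ^ 2 := by
        rw [div_mul_eq_mul_div, le_div_iff₀ (by positivity)]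
        exact mul_le_mul_of_nonneg_left (pow_le_pow_left₀ hR.le (not_lt.1 hx') 2) hB
      nlinarith [mul_le_mul_of_nonneg_left ((h x hx).1.trans this) (sq_nonneg (u (x, t)))]
  rw [IG_cmul] at h2
  refine h2.trans (mul_le_mul_of_nonneg_left (h1.trans ?_) (by positivity))
  rw [IG_e1 hF hu]
  have := IG_nonneg (t := t) hF (f := fun p => u p ^ 2) fun _ _ => sq_nonneg _
  linarith

theorem uc_alg {κ K l A Gm Qq P Z : ℝ} (hl0 : 0 < l) (hl1 : l ≤ 1) (hlK : l * (K + κ + 1) = κ)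
    (n1 : 0 ≤ A) (n2 : 0 ≤ Gm) (n3 : 0 ≤ Z) (hP : 0 ≤ P) (p3 : Qq ≤ K * A)
    (k1 : κ * A ≤ Gm - Qq + l / 8 * Gm + l / 8 * (A + Gm) + l / 16 * (A + Gm) + P + l / 32 * Z) :
    l / 4 * (A + Gm) ≤ Gm - Qq + P + Z := by
  have a1 := mul_le_mul_of_nonneg_left k1 (sub_nonneg.2 hl1)
  have a2 := mul_le_mul_of_nonneg_left p3 hl0.le
  have a3 : (1 - l) * (κ * A) = l * (K * A) + l * A := by linear_combination (-A) * hlK
  have a4 : l / 32 * Z ≤ Z := by nlinarith
  have a5 : 0 ≤ l * (l / 8 * Gm + l / 8 * (A + Gm) + l / 16 * (A + Gm) + P + l / 32 * Z) := by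
    positivity
  nlinarith [mul_nonneg hl0.le n1, mul_nonneg hl0.le n2]

/-- coercivity for functions supported in `B_{R+1}` (only the `L²` norm is controlled, up to a
small error) implies coercivity -/
theorem uc_of_loc {κ K : ℝ} (hκ : 0 < κ) (hK : 0 ≤ K) : ∃ θ R₀ κ' : ℝ, 0 < θ ∧ 0 < R₀ ∧ 0 < κ' ∧
    ∀ (F : Mv) (t R : ℝ) (q u : ST → ℝ) (P : ℝ), F.Reg → R₀ ≤ R → ContinuousOn q F.M → Tf F t u →
      (∀ x, (x, t) ∈ F.M → q (x, t) ≤ K) → 0 ≤ P →
      κ * IG F t (fun p => (cut (R + 1) p * u p) ^ 2) ≤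
        IG F t (F.gam (fun p => cut (R + 1) p * u p) fun p => cut (R + 1) p * u p) -
          IG F t (fun p => (cut (R + 1) p * u p) ^ 2 * q p) +
          θ * IG F t (e1 F fun p => cut (R + 1) p * u p) + P →
      κ' * IG F t (e1 F u) ≤ IG F t (F.gam u u) - IG F t (fun p => u p ^ 2 * q p) + P +
        IG F t fun p => u p ^ 2 * F.shr p ^ 2 := by
  have hc := cutK_nonneg
  obtain ⟨l, hl0, hl1, hlK⟩ : ∃ l : ℝ, 0 < l ∧ l ≤ 1 ∧ l * (K + κ + 1) = κ :=
    ⟨κ / (K + κ + 1), by positivity, by rw [div_le_one (by positivity)]; linarith, by field_simp⟩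
  obtain ⟨θ, hθ0, hθ1⟩ : ∃ θ : ℝ, 0 < θ ∧ θ * (16 * (2 * cutK + 2)) = l :=
    ⟨l / (16 * (2 * cutK + 2)), by positivity, by field_simp⟩
  obtain ⟨B, hB⟩ : ∃ B : ℝ, B = κ + K + cutK + 8 * cutK / l := ⟨_, rfl⟩
  have hB0 : 0 ≤ B := by rw [hB]; positivity
  refine ⟨θ, √(256 * (B + 1) / l) + 1, l / 4, hθ0, by positivity, by positivity,
    fun F t R q u P hF hR hq hu hqK hP h => ?_⟩
  have hR1 : 1 ≤ R := by linarith [Real.sqrt_nonneg (256 * (B + 1) / l)]
  have hBR : B / R ^ 2 ≤ l / 256 := by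
    have h1 : 256 * (B + 1) / l ≤ R ^ 2 := by
      rw [← Real.sq_sqrt (show 0 ≤ 256 * (B + 1) / l by positivity)]
      exact pow_le_pow_left₀ (Real.sqrt_nonneg _) (by linarith) 2
    rw [div_le_iff₀ hl0] at h1
    rw [div_le_iff₀ (by positivity)]
    linarith
  set χ := cut (R + 1) with hχ
  have sχ : F.Sm χ := sm_cut F _
  have hw : Tf F t fun p => χ p * u p := hu.mul' hF sχ
  set a : ST → ℝ := fun p => (κ + K) * (1 - χ p ^ 2) + (1 + 8 / l) * F.gam χ χ p with ha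
  have ca : ContinuousOn a F.M :=
    (continuousOn_const.mul (continuousOn_const.sub (sχ.continuousOn.pow 2))).add
      (continuousOn_const.mul (hF.sm_gam sχ sχ).continuousOn)
  have o := out_le hF hu (by linarith : 0 < R) ca hB0 fun x hx => ⟨by
    have a1 := gam_cut_le hF hx (r := R + 1) (by linarith)
    have a2 : (1 + 8 / l) * F.gam χ χ (x, t) ≤ (1 + 8 / l) * cutK := by gcongr
    have a3 : (κ + K) * (1 - χ (x, t) ^ 2) ≤ (κ + K) * 1 := by
      gcongr; linarith [sq_nonneg (χ (x, t))]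
    have a4 : (1 + 8 / l) * cutK = cutK + 8 * cutK / l := by ring
    simp only [ha, hB]; linarith, fun hx' => by
    simp only [ha, hχ]
    rw [gam_cut_zero hF hx (by linarith) (Or.inl (by simpa using hx')),
      cut_one (by linarith) (by simpa using hx'.le)]
    simp⟩
  have i1 := hu.ig_sq hF
  have i2 := hu.ig_gam hF hu.sm
  have i3 := (hu.sq hF).ig_mul hF hq
  have i4 := (hu.sq hF).ig_mul hF ca
  have j1 := hw.ig_sq hF
  have j2 := hw.ig_gam hF hw.sm
  have j3 := (hw.sq hF).ig_mul hF hq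
  have p1 : IG F t (fun p => F.gam (fun p => χ p * u p) (fun p => χ p * u p) p -
      (χ p * u p) ^ 2 * q p - κ * (χ p * u p) ^ 2) ≤ IG F t fun p =>
      (1 + l / 8) * F.gam u u p - u p ^ 2 * q p - κ * u p ^ 2 + u p ^ 2 * a p := by
    refine IG_mono hF ((j2.sub j3).sub (j1.cmul _))
      ((((i2.cmul _).sub i3).sub (i1.cmul _)).add i4) fun x hx => ?_
    rw [gam_mul hF hx sχ hu.sm]
    have a1 := two_gam_le (F := F) χ u (x, t) (u (x, t) * (8 / l)) (χ (x, t))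
    have a2 := cut_sq_le (R + 1) (x, t)
    have a3 := F.gam_self_nonneg u (x, t)
    have a4 := hqK x hx
    simp only [ha]
    rw [← hχ] at a2
    set U := u (x, t)
    set c := χ (x, t)
    have b1 : 2 * (c * U) * F.gam χ u (x, t) ≤
        8 / l * (U ^ 2 * F.gam χ χ (x, t)) + l / 8 * (c ^ 2 * F.gam u u (x, t)) := by
      have := mul_le_mul_of_nonneg_left a1 (show 0 ≤ l / 8 by positivity)
      have e1 : l / 8 * (2 * (U * (8 / l) * c) * F.gam χ u (x, t)) =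
          2 * (c * U) * F.gam χ u (x, t) := by field_simp
      have e2 : l / 8 * ((U * (8 / l)) ^ 2 * F.gam χ χ (x, t)) =
          8 / l * (U ^ 2 * F.gam χ χ (x, t)) := by field_simp
      rw [e1, mul_add, e2] at this
      exact this
    have b2 : c ^ 2 * F.gam u u (x, t) ≤ F.gam u u (x, t) := by nlinarith
    have b3 : U ^ 2 * (1 - c ^ 2) * q (x, t) ≤ U ^ 2 * (1 - c ^ 2) * K :=
      mul_le_mul_of_nonneg_left a4 (mul_nonneg (sq_nonneg _) (by linarith))
    nlinarith [mul_le_mul_of_nonneg_left b2 (show 0 ≤ l / 8 by positivity)]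
  have p2 : IG F t (e1 F fun p => χ p * u p) ≤ IG F t fun p => (2 * cutK + 2) * e1 F u p := by
    refine IG_mono hF (hw.ig_e1 hF) ((hu.ig_e1 hF).cmul _) fun x hx => ?_
    simp only [e1]
    rw [gam_mul hF hx sχ hu.sm]
    have a1 := two_gam_le (F := F) χ u (x, t) (u (x, t)) (χ (x, t))
    have a2 := cut_sq_le (R + 1) (x, t)
    have a3 := F.gam_self_nonneg u (x, t)
    have a4 := gam_cut_le hF hx (r := R + 1) (by linarith)
    rw [← hχ] at a2 a4
    nlinarith [mul_le_mul_of_nonneg_left a4 (sq_nonneg (u (x, t))),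
      mul_le_mul_of_nonneg_left a2 (sq_nonneg (u (x, t))), mul_le_mul_of_nonneg_left a2 a3,
      mul_nonneg hc a3]
  have p3 : IG F t (fun p => u p ^ 2 * q p) ≤ IG F t fun p => K * u p ^ 2 :=
    IG_mono hF i3 (i1.cmul _) fun x hx => by nlinarith [hqK x hx, sq_nonneg (u (x, t))]
  rw [IG_sub (j2.sub j3) (j1.cmul _), IG_sub j2 j3, IG_cmul,
    IG_add (((i2.cmul _).sub i3).sub (i1.cmul _)) i4, IG_sub ((i2.cmul _).sub i3) (i1.cmul _),
    IG_sub (i2.cmul _) i3, IG_cmul, IG_cmul] at p1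
  rw [IG_cmul] at p2 p3
  have n1 := IG_nonneg (t := t) hF (f := fun p => u p ^ 2) fun _ _ => sq_nonneg _
  have n2 := IG_nonneg (t := t) hF (f := F.gam u u) fun _ _ => F.gam_self_nonneg _ _
  have n3 := IG_nonneg (t := t) hF (f := fun p => u p ^ 2 * F.shr p ^ 2) fun _ _ => by positivity
  have p4 := mul_le_mul_of_nonneg_left p2 hθ0.le
  rw [IG_e1 hF hu] at o p4 ⊢
  set A := IG F t fun p => u p ^ 2
  set Gm := IG F t (F.gam u u)
  set Z := IG F t fun p => u p ^ 2 * F.shr p ^ 2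
  set Qq := IG F t fun p => u p ^ 2 * q p
  have o2 : B / R ^ 2 * (32 * (A + Gm) + 8 * Z) ≤ l / 256 * (32 * (A + Gm) + 8 * Z) := by gcongr
  have t1 : θ * ((2 * cutK + 2) * (A + Gm)) = l / 16 * (A + Gm) := by rw [← hθ1]; ring
  have k1 : κ * A ≤ Gm - Qq + l / 8 * Gm + l / 8 * (A + Gm) + l / 16 * (A + Gm) + P + l / 32 * Z := by
    linarith
  exact uc_alg hl0 hl1 hlK n1 n2 n3 hP p3 k1

end Crest.Agent.N250.Sg

end
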