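import Crest.Agent.N250.Sg.Area
import Crest.Agent.N250.Tr.Meas

/-!
# Row 250 (helper88): SUP, a Lipschitz function which is small in `L²` is small pointwise
-/

set_option autoImplicit false
open MeasureTheory Set Filter Topology Metric
open scoped ContDiff InnerProductSpace ENNReal NNReal
open Crest.GeometryTopology.MCF

noncomputable section

namespace Crest.Agent.N250.Sg

variable {t ρ r : ℝ} {x : E}

/-- measure form: lower area bound at all scales `≤ r` -/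
theorem sup_of_area {μ : Measure E} {A : Set E} (hA : ∀ᵐ y ∂μ, y ∈ A) {v : E → ℝ} {L I : ℝ}
    (hr : 0 < r) (hL : 0 < L) (hI : 0 ≤ I)
    (ha : ∀ s, 0 < s → s ≤ r → ENNReal.ofReal (s ^ 2 / 32) ≤ μ (ball x s))
    (hv : ∀ y ∈ A, y ∈ ball x r → |v y - v x| ≤ L * ‖y - x‖)
    (hi : ∫⁻ y in ball x r, ENNReal.ofReal (v y ^ 2) ∂μ ≤ ENNReal.ofReal I) :
    v x ^ 4 ≤ 512 * L ^ 2 * I ∨ v x ^ 2 * r ^ 2 ≤ 128 * I := by
  rcases eq_or_lt_of_le (abs_nonneg (v x)) with h0 | h0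
  · right
    rw [abs_eq_zero.1 h0.symm]; nlinarith
  set m := |v x| with hm
  have key : ∀ s, 0 < s → s ≤ r → 2 * L * s ≤ m → m ^ 2 * s ^ 2 ≤ 128 * I := by
    intro s hs hsr hsm
    have h1 : ∫⁻ _ in ball x s, ENNReal.ofReal (m ^ 2 / 4) ∂μ ≤
        ∫⁻ y in ball x s, ENNReal.ofReal (v y ^ 2) ∂μ := by
      refine lintegral_mono_ae ?_
      filter_upwards [ae_restrict_of_ae hA, ae_restrict_mem measurableSet_ball] with y hy hb
      refine ENNReal.ofReal_le_ofReal ?_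
      have a := hv y hy (ball_subset_ball hsr hb)
      have b : L * ‖y - x‖ ≤ L * s := mul_le_mul_of_nonneg_left (mem_ball_iff_norm.1 hb).le hL.le
      have c := abs_sub_abs_le_abs_sub (v x) (v y)
      rw [abs_sub_comm] at c
      have d : m / 2 ≤ |v y| := by linarith
      have := pow_le_pow_left₀ (by linarith) d 2
      rw [sq_abs] at this
      linarith
    rw [setLIntegral_const] at h1
    have h2 := ((mul_le_mul_right (ha s hs hsr) _).trans h1).trans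
      ((lintegral_mono_set (ball_subset_ball hsr)).trans hi)
    rw [← ENNReal.ofReal_mul (by positivity), ENNReal.ofReal_le_ofReal_iff hI] at h2
    linarith
  have e2 : v x ^ 2 = m ^ 2 := (sq_abs _).symm
  rcases le_total (2 * L * r) m with h | h
  · right; rw [e2]; exact key r hr le_rfl h
  · left
    have h1 := key (m / (2 * L)) (by positivity) ((div_le_iff₀ (by positivity)).2 (by linarith))
      (le_of_eq (by field_simp))
    have e4 : v x ^ 4 = 4 * L ^ 2 * (m ^ 2 * (m / (2 * L)) ^ 2) := by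
      have : v x ^ 4 = (v x ^ 2) ^ 2 := by ring
      rw [this, e2]; field_simp; ring
    rw [e4]
    nlinarith [mul_le_mul_of_nonneg_left h1 (by positivity : 0 ≤ 4 * L ^ 2)]

variable {F : Mv}

/-- **SUP**, unweighted -/
theorem sup_le (hF : F.Reg) (hx : x ∈ F.sl t) (hr : 0 < r) (hρ : r ≤ ρ)
    (hc : ∀ y ∈ closure (F.sl t), y ∈ ball x r → y ∈ F.sl t)
    (hR : ∀ y ∈ F.sl t, y ∈ ball x r → F.Reach (y, t) ρ) {v : E → ℝ} {L I : ℝ}
    (hL : 0 < L) (hI : 0 ≤ I) (hv : ∀ y ∈ F.sl t, y ∈ ball x r → |v y - v x| ≤ L * ‖y - x‖)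
    (hi : ∫⁻ y in ball x r, ENNReal.ofReal (v y ^ 2) ∂F.mu t ≤ ENNReal.ofReal I) :
    v x ^ 4 ≤ 512 * L ^ 2 * I ∨ v x ^ 2 * r ^ 2 ≤ 128 * I :=
  sup_of_area (A := F.sl t) (Tr.ae_sl hF t) hr hL hI (fun _ hs hsr => area_lower hF hx hs (hsr.trans hρ)
    (fun y hy hb => hc y hy (ball_subset_ball hsr hb))
    fun y hy hb => hR y hy (ball_subset_ball hsr hb)) hv hi

theorem gau_ge {y : E} {R : ℝ} (hy : ‖y‖ ≤ R) :
    1 ≤ 4 * Real.pi * Real.exp (R ^ 2 / 4) * gau 0 1 y := by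
  have hp := Real.pi_pos
  have e : 4 * Real.pi * Real.exp (R ^ 2 / 4) * gau 0 1 y =
      Real.exp (R ^ 2 / 4 + -‖y‖ ^ 2 / 4) := by
    unfold gau
    rw [Real.exp_add, sub_zero, mul_one, mul_one]; field_simp
  rw [e, Real.one_le_exp_iff]
  have := pow_le_pow_left₀ (norm_nonneg _) hy 2
  linarith

/-- **SUP**, Gaussian weight: `I` bounds `∫_{B(x,r)} v² gau` -/
theorem sup_gau (hF : F.Reg) (hx : x ∈ F.sl t) (hr : 0 < r) (hρ : r ≤ ρ)
    (hc : ∀ y ∈ closure (F.sl t), y ∈ ball x r → y ∈ F.sl t)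
    (hR : ∀ y ∈ F.sl t, y ∈ ball x r → F.Reach (y, t) ρ) {v : E → ℝ} {L I R : ℝ}
    (hL : 0 < L) (hI : 0 ≤ I) (hxR : ‖x‖ + r ≤ R)
    (hv : ∀ y ∈ F.sl t, y ∈ ball x r → |v y - v x| ≤ L * ‖y - x‖)
    (hi : ∫⁻ y in ball x r, ENNReal.ofReal (v y ^ 2 * gau 0 1 y) ∂F.mu t ≤ ENNReal.ofReal I) :
    v x ^ 4 ≤ 512 * L ^ 2 * (4 * Real.pi * Real.exp (R ^ 2 / 4) * I) ∨
      v x ^ 2 * r ^ 2 ≤ 128 * (4 * Real.pi * Real.exp (R ^ 2 / 4) * I) := by
  have hp := Real.pi_pos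
  refine sup_le hF hx hr hρ hc hR hL (by positivity) hv ?_
  rw [ENNReal.ofReal_mul (by positivity)]
  refine le_trans ?_ (mul_le_mul_right hi _)
  rw [← lintegral_const_mul' _ _ ENNReal.ofReal_ne_top]
  refine lintegral_mono_ae ?_
  filter_upwards [ae_restrict_mem measurableSet_ball] with y hy
  rw [← ENNReal.ofReal_mul (by positivity)]
  refine ENNReal.ofReal_le_ofReal ?_
  have h1 : ‖y‖ ≤ R := by
    have := norm_sub_norm_le y x
    linarith [mem_ball_iff_norm.1 hy]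
  nlinarith [mul_le_mul_of_nonneg_left (gau_ge h1) (sq_nonneg (v y))]

/-- **SUP** in one inequality (`J ≤ 1` is the unweighted bound): `v⁴ ≤ C(L, r) J` -/
theorem pow4_of_or {a L r J : ℝ} (hr : 0 < r) (hJ0 : 0 ≤ J) (hJ : J ≤ 1)
    (h : a ^ 4 ≤ 512 * L ^ 2 * J ∨ a ^ 2 * r ^ 2 ≤ 128 * J) :
    a ^ 4 ≤ (512 * L ^ 2 + 128 ^ 2 / r ^ 4) * J := by
  have h0 : 0 ≤ 128 ^ 2 / r ^ 4 * J := by positivity
  have h1 : 0 ≤ 512 * L ^ 2 * J := by positivity
  rcases h with h | h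
  · linarith
  · have h2 := pow_le_pow_left₀ (by positivity) h 2
    have h3 : a ^ 4 ≤ 128 ^ 2 / r ^ 4 * J := by
      rw [div_mul_eq_mul_div, le_div_iff₀ (by positivity)]
      nlinarith
    linarith

end Crest.Agent.N250.Sg

end
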