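import Crest.Agent.N250.Re.Pt
import Crest.Agent.N250.FV.Hu0
import Crest.Agent.N250.MP.Max
import Crest.Agent.N250.T.Gau

/-!
# Row 250, static Gaussian estimate (helper9), part 1: test functions on a slice, the weighted
Green formula and Ecker's inequality
-/

set_option autoImplicit false
open MeasureTheory Set Filter Topology
open scoped ContDiff InnerProductSpace
open Crest.GeometryTopology.MCF

noncomputable section

namespace Crest.Agent.N250.Sg

variable {F : Mv} {t : ℝ} {p : ST} {u w f g : ST → ℝ}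

/-- the Gaussian weight -/
def Gw (p : ST) : ℝ := gau 0 1 p.1

/-- `⟨x, ∇u⟩` -/
def xD (F : Mv) (u : ST → ℝ) (p : ST) : ℝ := ∑ a, p.1 a * F.D a u p

/-- slice integral against the Gaussian -/
def IG (F : Mv) (t : ℝ) (f : ST → ℝ) : ℝ := ∫ x, f (x, t) * gau 0 1 x ∂F.mu t

/-- integrable against the Gaussian -/
def Ig (F : Mv) (t : ℝ) (f : ST → ℝ) : Prop := Integrable (fun x => f (x, t) * gau 0 1 x) (F.mu t)

/-- the drift Laplacian -/
def L0 (F : Mv) (u : ST → ℝ) (p : ST) : ℝ := F.lap u p - xD F u p / 2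

/-- smooth with compact support in the slice -/
structure Tf (F : Mv) (t : ℝ) (u : ST → ℝ) : Prop where
  sm : F.Sm u
  cs : F.CS u {t}

theorem Gw_pos (p : ST) : 0 < Gw p := Gau.gau_pos 0 one_pos _

theorem contDiff_nsq : ContDiff ℝ ∞ fun q : ST => ‖q.1‖ ^ 2 := (contDiff_norm_sq ℝ).comp contDiff_fst

theorem Gw_eq (p : ST) : Gw p = (4 * Real.pi)⁻¹ * Real.exp (-‖p.1‖ ^ 2 / 4) := by
  simp [Gw, gau]

theorem contDiff_Gw : ContDiff ℝ ∞ Gw := by
  rw [funext Gw_eq]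
  exact contDiff_const.mul (Real.contDiff_exp.comp (contDiff_nsq.neg.div_const _))

theorem sm_Gw (F : Mv) : F.Sm Gw := contDiff_Gw.contDiffOn

theorem sm_nsq (F : Mv) : F.Sm fun q : ST => ‖q.1‖ ^ 2 := contDiff_nsq.contDiffOn

theorem sm_co (F : Mv) (a : Fin 3) : F.Sm fun q : ST => q.1 a := Mv.sm_x a

theorem sm_xD (hF : F.Reg) (hu : F.Sm u) : F.Sm (xD F u) :=
  ContDiffOn.sum fun a _ => (sm_co F a).mul (hF.sm_D hu a)

theorem sm_L0 (hF : F.Reg) (hu : F.Sm u) : F.Sm (L0 F u) :=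
  ContDiffOn.sub (hF.sm_lap hu) ((sm_xD hF hu).div_const 2)

theorem D_nsq (hF : F.Reg) (hp : p ∈ F.M) (a : Fin 3) :
    F.D a (fun q : ST => ‖q.1‖ ^ 2) p = 2 * (p.1 a - F.xn 0 p * F.nu a p) := by
  have h1 : HasFDerivAt (fun q : ST => ‖q.1‖ ^ 2)
      ((2 • innerSL ℝ p.1).comp (ContinuousLinearMap.fst ℝ E ℝ)) p :=
    (hasStrictFDerivAt_norm_sq p.1).hasFDerivAt.comp p hasFDerivAt_fst
  rw [hF.D_amb hp h1.differentiableAt, h1.fderiv]
  have := Hu.PL_ee F p p.1 a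
  simp only [Mv.xn, sub_zero]
  simp [this]

/-- chain rule for radial functions -/
theorem D_rad (hF : F.Reg) (hp : p ∈ F.M) {ψ : ℝ → ℝ} {d : ℝ} (hψ : HasDerivAt ψ d (‖p.1‖ ^ 2))
    (a : Fin 3) :
    F.D a (fun q : ST => ψ (‖q.1‖ ^ 2)) p = d * (2 * (p.1 a - F.xn 0 p * F.nu a p)) := by
  rw [hF.D_comp hp (sm_nsq F) hψ, D_nsq hF hp]

theorem D_Gw (hF : F.Reg) (hp : p ∈ F.M) (a : Fin 3) :
    F.D a Gw p = -(Gw p / 2) * (p.1 a - F.xn 0 p * F.nu a p) := by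
  have h : HasDerivAt (fun s : ℝ => (4 * Real.pi)⁻¹ * Real.exp (-s / 4))
      ((4 * Real.pi)⁻¹ * (Real.exp (-‖p.1‖ ^ 2 / 4) * (-1 / 4))) (‖p.1‖ ^ 2) :=
    (((hasDerivAt_id _).neg.div_const 4).exp).const_mul _
  have := D_rad hF hp h a
  rw [funext Gw_eq, this]; ring

theorem sum_x_nu (F : Mv) (p : ST) : ∑ a, p.1 a * F.nu a p = F.xn 0 p := by
  simpa using Hu.sum_co_nu F 0 p

theorem sum_x_sq (x : E) : ∑ a, x a * x a = ‖x‖ ^ 2 := by simpa using Hu.sum_co_sq 0 x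

theorem sum_D_x (hF : F.Reg) (hp : p ∈ F.M) : ∑ a, F.D a (fun q : ST => q.1 a) p = 2 := by
  simpa using Hu.sum_D_co hF hp 0

theorem xD_sq_le (F : Mv) (u : ST → ℝ) (p : ST) : xD F u p ^ 2 ≤ ‖p.1‖ ^ 2 * F.gam u u p := by
  rw [← sum_x_sq, Mv.gam_apply]
  simpa only [xD, sq] using
    Finset.sum_mul_sq_le_sq_mul_sq Finset.univ (fun a => p.1 a) fun a => F.D a u p

/-! ### test functions -/

/-- the support of a test function also carries its gradient -/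
theorem Tf.supp (hF : F.Reg) (h : Tf F t u) : ∃ K, IsCompact K ∧ K ⊆ F.M ∧
    ∀ p ∈ F.M, p.2 = t → p ∉ K → u p = 0 ∧ ∀ a, F.D a u p = 0 := by
  obtain ⟨K, h1, h2, h3⟩ := h.cs
  refine ⟨K, h1, h2, fun p hp ht hK => ⟨h3 p hp ht hK, ?_⟩⟩
  refine ((MP.maxS_holds F hF u h.sm p hp).1 ?_).1
  filter_upwards [self_mem_nhdsWithin,
    mem_nhdsWithin_of_mem_nhds (h1.isClosed.isOpen_compl.mem_nhds hK)] with q a b
  rw [h3 p hp ht hK, h3 q a.1 (a.2.trans ht) b]

theorem Tf.cs_of (hF : F.Reg) (h : Tf F t u)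
    (h0 : ∀ p ∈ F.M, u p = 0 → (∀ a, F.D a u p = 0) → g p = 0) : F.CS g {t} := by
  obtain ⟨K, h1, h2, h3⟩ := h.supp hF
  exact ⟨K, h1, h2, fun p hp ht hK => h0 p hp (h3 p hp ht hK).1 (h3 p hp ht hK).2⟩

theorem Tf.of (hF : F.Reg) (h : Tf F t u) (hg : F.Sm g)
    (h0 : ∀ p ∈ F.M, u p = 0 → (∀ a, F.D a u p = 0) → g p = 0) : Tf F t g :=
  ⟨hg, h.cs_of hF h0⟩

theorem Tf.D (hF : F.Reg) (h : Tf F t u) (a : Fin 3) : Tf F t (F.D a u) :=
  h.of hF (hF.sm_D h.sm a) fun _ _ _ h => h a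

theorem Tf.mul (hF : F.Reg) (h : Tf F t u) (hg : F.Sm g) : Tf F t fun p => u p * g p :=
  h.of hF (h.sm.mul hg) fun _ _ h _ => by simp [h]

theorem Tf.int (hM : MuFinS) (hF : F.Reg) (h : Tf F t u) (hg : ContinuousOn g F.M)
    (h0 : ∀ p ∈ F.M, u p = 0 → (∀ a, F.D a u p = 0) → g p = 0) :
    Integrable (fun x => g (x, t)) (F.mu t) :=
  Hu.int_CS hM hF (J := {t}) rfl
    (Hu.cont_sl (S := univ) (hg.mono inter_subset_left) fun _ => trivial) (h.cs_of hF h0)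

theorem Tf.intG (hM : MuFinS) (hF : F.Reg) (h : Tf F t u) (hg : ContinuousOn g F.M)
    (h0 : ∀ p ∈ F.M, u p = 0 → (∀ a, F.D a u p = 0) → g p = 0) :
    Ig F t g :=
  h.int hM hF (g := fun p => g p * Gw p) (hg.mul (sm_Gw F).continuousOn)
    fun p hp a b => by simp [h0 p hp a b]

theorem Tf.self (hM : MuFinS) (hF : F.Reg) (h : Tf F t u) :
    Integrable (fun x => u (x, t)) (F.mu t) := h.int hM hF h.sm.continuousOn fun _ _ a _ => a

theorem Tf.selfG (hM : MuFinS) (hF : F.Reg) (h : Tf F t u) : Ig F t u :=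
  h.intG hM hF h.sm.continuousOn fun _ _ a _ => a

/-- the divergence theorem for vector fields -/
theorem div0 (hM : MuFinS) (hD : DivS) (hF : F.Reg) {Y : Fin 3 → ST → ℝ}
    (hY : ∀ a, Tf F t (Y a)) :
    Integrable (fun x => ∑ a, (F.D a (Y a) (x, t) - Y a (x, t) * F.H (x, t) * F.nu a (x, t)))
      (F.mu t) ∧
    ∫ x, ∑ a, (F.D a (Y a) (x, t) - Y a (x, t) * F.H (x, t) * F.nu a (x, t)) ∂F.mu t = 0 := by
  have i1 : ∀ a, Integrable (fun x => F.D a (Y a) (x, t)) (F.mu t) := fun a =>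
    ((hY a).D hF a).self hM hF
  have i2 : ∀ a, Integrable (fun x => Y a (x, t) * F.H (x, t) * F.nu a (x, t)) (F.mu t) := fun a =>
    (((hY a).mul hF hF.sm_H).mul hF (hF.sm_nu a)).self hM hF
  refine ⟨integrable_finsetSum _ fun a _ => (i1 a).sub (i2 a), ?_⟩
  rw [integral_finsetSum (f := fun a x => F.D a (Y a) (x, t) -
    Y a (x, t) * F.H (x, t) * F.nu a (x, t)) _ fun a _ => (i1 a).sub (i2 a)]
  refine Finset.sum_eq_zero fun a _ => ?_
  rw [integral_sub (i1 a) (i2 a), hD F hF (Y a) t a (hY a).sm (hY a).cs, sub_self]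

/-- the Gaussian divergence theorem: `∫ (div Y - ⟨x, Y⟩ / 2 - shr ⟨Y, n⟩) G = 0` -/
theorem divG (hM : MuFinS) (hD : DivS) (hF : F.Reg) {Y : Fin 3 → ST → ℝ}
    (hY : ∀ a, Tf F t (Y a)) :
    IG F t (fun p => ∑ a, F.D a (Y a) p - (∑ a, p.1 a * Y a p) / 2 -
      F.shr p * ∑ a, F.nu a p * Y a p) = 0 := by
  rw [← (div0 hM hD hF fun a => (hY a).mul hF (sm_Gw F)).2]
  refine Hu.int_congr hF fun x hx => ?_
  have e : ∀ a, F.D a (fun p => Y a p * Gw p) (x, t) = Y a (x, t) * (-(Gw (x, t) / 2) *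
      (x a - F.xn 0 (x, t) * F.nu a (x, t))) + F.D a (Y a) (x, t) * Gw (x, t) := fun a => by
    rw [← D_Gw hF hx]; exact hF.D_mul hx (hY a).sm (sm_Gw F) a
  simp only [e]
  simp only [Mv.shr, Fin.sum_univ_three, Gw]
  ring

/-! ### linearity and monotonicity -/

theorem IG_congr (hF : F.Reg) (h : ∀ x, (x, t) ∈ F.M → f (x, t) = g (x, t)) :
    IG F t f = IG F t g := Hu.int_congr hF fun x hx => by rw [h x hx]

theorem Ig.add (hf : Ig F t f) (hg : Ig F t g) : Ig F t fun p => f p + g p := by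
  simp only [Ig, add_mul]; exact Integrable.add hf hg

theorem Ig.sub (hf : Ig F t f) (hg : Ig F t g) : Ig F t fun p => f p - g p := by
  simp only [Ig, sub_mul]; exact Integrable.sub hf hg

theorem Ig.cmul (hf : Ig F t f) (c : ℝ) : Ig F t fun p => c * f p := by
  simp only [Ig, mul_assoc]; exact Integrable.const_mul hf c

theorem Ig.sum {κ : Type} (s : Finset κ) {f : κ → ST → ℝ} (hf : ∀ i, Ig F t (f i)) :
    Ig F t fun p => ∑ i ∈ s, f i p := by
  simp only [Ig, Finset.sum_mul]; exact integrable_finsetSum _ fun i _ => hf i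

theorem IG_sum {κ : Type} (s : Finset κ) {f : κ → ST → ℝ} (hf : ∀ i, Ig F t (f i)) :
    IG F t (fun p => ∑ i ∈ s, f i p) = ∑ i ∈ s, IG F t (f i) := by
  simp only [IG, Finset.sum_mul]; exact integral_finsetSum _ fun i _ => hf i

theorem IG_add (hf : Ig F t f) (hg : Ig F t g) :
    IG F t (fun p => f p + g p) = IG F t f + IG F t g := by
  simp only [IG, add_mul]; exact integral_add hf hg

theorem IG_sub (hf : Ig F t f) (hg : Ig F t g) :
    IG F t (fun p => f p - g p) = IG F t f - IG F t g := by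
  simp only [IG, sub_mul]; exact integral_sub hf hg

theorem IG_cmul (c : ℝ) : IG F t (fun p => c * f p) = c * IG F t f := by
  simp only [IG, mul_assoc]; exact integral_const_mul _ _

theorem IG_mono (hF : F.Reg) (hf : Ig F t f) (hg : Ig F t g)
    (h : ∀ x, (x, t) ∈ F.M → f (x, t) ≤ g (x, t)) : IG F t f ≤ IG F t g :=
  integral_mono_ae hf hg ((Hu.ae_sl hF t).mono fun x hx =>
    mul_le_mul_of_nonneg_right (h x hx) (Gau.gau_pos 0 one_pos x).le)

theorem IG_nonneg (hF : F.Reg) (h : ∀ x, (x, t) ∈ F.M → 0 ≤ f (x, t)) : 0 ≤ IG F t f :=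
  integral_nonneg_of_ae ((Hu.ae_sl hF t).mono fun x hx =>
    mul_nonneg (h x hx) (Gau.gau_pos 0 one_pos x).le)

/-- weighted Green formula -/
theorem green (hM : MuFinS) (hD : DivS) (hF : F.Reg) (hu : Tf F t u) (hw : F.Sm w) :
    IG F t (fun p => u p * L0 F w p) = -IG F t (F.gam u w) := by
  have h := divG hM hD hF fun a => hu.mul hF (hF.sm_D hw a)
  rw [eq_neg_iff_add_eq_zero, ← IG_add ((hu.mul hF (sm_L0 hF hw)).selfG hM hF)
    (hu.intG hM hF (hF.sm_gam hu.sm hw).continuousOn fun p _ _ b => by simp [Mv.gam_apply, b]), ← h]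
  refine IG_congr hF fun x hx => ?_
  have e : ∀ a, F.D a (fun p => u p * F.D a w p) (x, t) = u (x, t) * F.D a (F.D a w) (x, t) +
    F.D a u (x, t) * F.D a w (x, t) := fun a => hF.D_mul hx hu.sm (hF.sm_D hw a) a
  have e2 := hF.n_D hx w
  simp only [e, L0, xD, Mv.lap_apply, Mv.gam_apply, Fin.sum_univ_three] at e2 ⊢
  linear_combination (F.shr (x, t) * u (x, t)) * e2

theorem Tf.sq (hF : F.Reg) (hu : Tf F t u) : Tf F t fun p => u p ^ 2 :=
  hu.of hF (ContDiffOn.pow hu.sm 2) fun _ _ a _ => by simp [a]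

theorem Tf.gam (hF : F.Reg) (hu : Tf F t u) (hw : F.Sm w) : Tf F t (F.gam u w) :=
  hu.of hF (hF.sm_gam hu.sm hw) fun _ _ _ b => by simp [Mv.gam_apply, b]

/-- Ecker's inequality on a surface that need not be a shrinker -/
theorem ecker (hM : MuFinS) (hD : DivS) (hF : F.Reg) (hu : Tf F t u) :
    IG F t (fun p => u p ^ 2 * ‖p.1‖ ^ 2) ≤ 32 * IG F t (F.gam u u) + 8 * IG F t (fun p => u p ^ 2)
      + 8 * IG F t fun p => u p ^ 2 * F.shr p ^ 2 := by
  have h2 := hu.sq hF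
  have h := divG hM hD hF fun a => h2.mul hF (sm_co F a)
  have i1 := (h2.mul hF (sm_nsq F)).selfG hM hF
  have i2 := (hu.gam hF hu.sm).selfG hM hF
  have i3 := h2.selfG hM hF
  have i4 := (h2.mul hF (g := fun p => F.shr p ^ 2) (ContDiffOn.pow hF.sm_shr 2)).selfG hM hF
  have i5 := (hu.mul hF (sm_xD hF hu.sm)).selfG hM hF
  have i6 := (h2.mul hF (hF.sm_shr.mul (hF.sm_xn 0))).selfG hM hF
  have e : IG F t (fun p => 2 * (u p * xD F u p) + 2 * u p ^ 2 - 1 / 2 * (u p ^ 2 * ‖p.1‖ ^ 2) -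
      u p ^ 2 * (F.shr * F.xn 0) p) = 0 := by
    rw [← h]
    refine IG_congr hF fun x hx => ?_
    have e1 : ∀ a, F.D a (fun p => u p ^ 2 * p.1 a) (x, t) =
        u (x, t) ^ 2 * F.D a (fun q : ST => q.1 a) (x, t) +
          2 * u (x, t) * F.D a u (x, t) * x a := fun a => by
      have := hF.D_mul hx h2.sm (sm_co F a) a
      rw [hF.D_comp hx (ψ := fun s => s ^ 2) hu.sm
        (by simpa using hasDerivAt_pow 2 (u (x, t)))] at this
      exact this
    have e2 := sum_D_x hF hx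
    have e3 := sum_x_nu F (x, t)
    have e4 := sum_x_sq x
    simp only [e1, xD, Fin.sum_univ_three, Pi.mul_apply] at e2 e3 e4 ⊢
    linear_combination (-u (x, t) ^ 2) * e2 + (u (x, t) ^ 2 / 2) * e4 +
      (F.shr (x, t) * u (x, t) ^ 2) * e3
  have hle : IG F t (fun p => 2 * (u p * xD F u p) + 2 * u p ^ 2 - 1 / 2 * (u p ^ 2 * ‖p.1‖ ^ 2) -
      u p ^ 2 * (F.shr * F.xn 0) p) ≤ IG F t (fun p => 8 * F.gam u u p + 2 * u p ^ 2 +
        2 * (u p ^ 2 * F.shr p ^ 2) - 1 / 4 * (u p ^ 2 * ‖p.1‖ ^ 2)) := by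
    refine IG_mono hF ?_ ?_ fun x hx => ?_
    · exact (((i5.cmul 2).add (i3.cmul 2)).sub (i1.cmul (1 / 2))).sub i6
    · exact (((i2.cmul 8).add (i3.cmul 2)).add (i4.cmul 2)).sub (i1.cmul (1 / 4))
    · have a1 := xD_sq_le F u (x, t)
      have a2 := Hu.xn_sq_le hF hx 0
      have a3 := F.gam_self_nonneg u (x, t)
      simp only [sub_zero, Pi.mul_apply] at a2 ⊢
      set U := u (x, t)
      set X := xD F u (x, t)
      set γ := F.gam u u (x, t)
      set N := ‖x‖ ^ 2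
      set s := F.shr (x, t)
      set n := F.xn 0 (x, t)
      have hN : 0 ≤ N := sq_nonneg _
      have b1 : 2 * (U * X) ≤ 8 * γ + 1 / 8 * (U ^ 2 * N) := by
        refine (abs_le_of_sq_le_sq' ?_ (by positivity)).2
        nlinarith [mul_le_mul_of_nonneg_left a1 (sq_nonneg U), sq_nonneg (8 * γ - 1 / 8 * (U ^ 2 * N))]
      have b2 : -(U ^ 2 * (s * n)) ≤ 2 * (U ^ 2 * s ^ 2) + 1 / 8 * (U ^ 2 * N) := by
        nlinarith [mul_nonneg (sq_nonneg U) (sq_nonneg (4 * s + n)),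
          mul_le_mul_of_nonneg_left a2 (sq_nonneg U)]
      linarith
  rw [e, IG_sub (((i2.cmul 8).add (i3.cmul 2)).add (i4.cmul 2)) (i1.cmul _),
    IG_add ((i2.cmul 8).add (i3.cmul 2)) (i4.cmul 2), IG_add (i2.cmul 8) (i3.cmul 2), IG_cmul,
    IG_cmul, IG_cmul, IG_cmul] at hle
  linarith

end Crest.Agent.N250.Sg

end
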