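import Crest.Agent.N250.Sg.Cut

/-!
# Row 250, static Gaussian estimate (helper9), part 3: the energy inequality for the height
-/

set_option autoImplicit false
open MeasureTheory Set Filter Topology
open scoped ContDiff InnerProductSpace
open Crest.GeometryTopology.MCF

noncomputable section

namespace Crest.Agent.N250.Sg

variable {F : Mv} {t : ℝ} {p : ST}

/-- cut-off: `1` on `B_{r-1}`, `0` off `B_{r-1/2}` -/
def cut2 (r : ℝ) (p : ST) : ℝ := Real.smoothTransition (((r - 1 / 2) ^ 2 - ‖p.1‖ ^ 2) / (r - 3 / 4))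

theorem contDiff_cut2 (r : ℝ) : ContDiff ℝ ∞ (cut2 r) :=
  Real.smoothTransition.contDiff.comp ((contDiff_const.sub contDiff_nsq).div_const _)

theorem cut2_sq_le (r : ℝ) (p : ST) : cut2 r p ^ 2 ≤ 1 := by
  have := Real.smoothTransition.nonneg (((r - 1 / 2) ^ 2 - ‖p.1‖ ^ 2) / (r - 3 / 4))
  have := Real.smoothTransition.le_one (((r - 1 / 2) ^ 2 - ‖p.1‖ ^ 2) / (r - 3 / 4))
  rw [cut2]; nlinarith

theorem cut2_one {r : ℝ} (hr : 1 ≤ r) (h : ‖p.1‖ ≤ r - 1) : cut2 r p = 1 := by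
  refine Real.smoothTransition.one_of_one_le ?_
  rw [le_div_iff₀ (by linarith)]
  nlinarith [norm_nonneg p.1]

theorem cut2_zero {r : ℝ} (hr : 1 ≤ r) (h : r - 1 / 2 ≤ ‖p.1‖) : cut2 r p = 0 := by
  refine Real.smoothTransition.zero_of_nonpos (div_nonpos_of_nonpos_of_nonneg ?_ (by linarith))
  nlinarith

theorem gam_cut2 (hF : F.Reg) (hp : p ∈ F.M) (r : ℝ) : F.gam (cut2 r) (cut2 r) p =
    deriv Real.smoothTransition (((r - 1 / 2) ^ 2 - ‖p.1‖ ^ 2) / (r - 3 / 4)) ^ 2 *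
      (4 * (‖p.1‖ ^ 2 - F.xn 0 p ^ 2) / (r - 3 / 4) ^ 2) := by
  have h1 : HasDerivAt (fun s => Real.smoothTransition (((r - 1 / 2) ^ 2 - s) / (r - 3 / 4)))
      (deriv Real.smoothTransition (((r - 1 / 2) ^ 2 - ‖p.1‖ ^ 2) / (r - 3 / 4)) *
        (-1 / (r - 3 / 4))) (‖p.1‖ ^ 2) := by
    refine HasDerivAt.comp (h₂ := Real.smoothTransition) _
      ((Real.smoothTransition.contDiff (n := 1)).differentiable (by simp) _).hasDerivAt ?_
    simpa using ((hasDerivAt_id (‖p.1‖ ^ 2)).const_sub ((r - 1 / 2) ^ 2)).div_const (r - 3 / 4)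
  have e : ∀ a, F.D a (cut2 r) p = _ := fun a => D_rad hF hp h1 a
  have e2 := sum_x_nu F p
  have e3 := sum_x_sq p.1
  have e4 := hF.nn hp
  simp only [Mv.gam_apply, e]
  set d := deriv Real.smoothTransition (((r - 1 / 2) ^ 2 - ‖p.1‖ ^ 2) / (r - 3 / 4))
  generalize r - 3 / 4 = m
  simp only [Fin.sum_univ_three, div_eq_mul_inv, ← inv_pow] at e2 e3 e4 ⊢
  linear_combination (4 * d ^ 2 * m⁻¹ ^ 2) * e3 - (8 * d ^ 2 * m⁻¹ ^ 2 * F.xn 0 p) * e2 +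
    (4 * d ^ 2 * m⁻¹ ^ 2 * F.xn 0 p ^ 2) * e4

theorem gam_cut2_zero (hF : F.Reg) (hp : p ∈ F.M) {r : ℝ} (hr : 1 ≤ r)
    (h : ‖p.1‖ < r - 1 ∨ r - 1 / 2 < ‖p.1‖) : F.gam (cut2 r) (cut2 r) p = 0 := by
  rw [gam_cut2 hF hp, deriv_st_zero]; · simp
  rcases h with h | h
  · right; rw [lt_div_iff₀ (by linarith)]; nlinarith [norm_nonneg p.1]
  · left; exact div_neg_of_neg_of_pos (by nlinarith) (by linarith)

theorem gam_cut2_le (hF : F.Reg) (hp : p ∈ F.M) {r : ℝ} (hr : 1 ≤ r) :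
    F.gam (cut2 r) (cut2 r) p ≤ cutK := by
  by_cases h : r - 1 / 2 < ‖p.1‖
  · rw [gam_cut2_zero hF hp hr (Or.inr h)]; exact cutK_nonneg
  rw [gam_cut2 hF hp, cutK, mul_comm 16]
  have h0 := (sq_nonneg _).trans (Classical.choose_spec exists_st 0)
  have h1 : 4 * (‖p.1‖ ^ 2 - F.xn 0 p ^ 2) / (r - 3 / 4) ^ 2 ≤ 16 := by
    rw [div_le_iff₀ (pow_pos (by linarith) 2)]
    nlinarith [norm_nonneg p.1, sq_nonneg (F.xn 0 p), not_lt.1 h]
  have h2 := Hu.xn_sq_le hF hp 0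
  rw [sub_zero] at h2
  exact mul_le_mul (Classical.choose_spec exists_st _) h1 (div_nonneg (by linarith) (sq_nonneg _)) h0

theorem core_pt {c v L q s h cs g gu gc K δ k : ℝ} (hk : 0 < k) (hK : 0 ≤ K) (hv : |v| ≤ δ)
    (hcs : cs ^ 2 ≤ 1) (hgu : c ^ 2 * g ≤ 2 * gu + 2 * (v ^ 2 * gc))
    (heq : |L + q * v - (s - h * cs)| ≤ K * (v ^ 2 + g)) :
    -(c * (c * v) * L) - (c * v) ^ 2 * q ≤ -(c * (c * v) * s) + k / 8 * (c * v) ^ 2 +
      2 / k * (c ^ 2 * h ^ 2) + 2 * K * δ * ((c * v) ^ 2 + gu) + 2 * K * δ * (v ^ 2 * gc) := by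
  have hδ := (abs_nonneg v).trans hv
  have h1 : -(v * (L + q * v - (s - h * cs))) ≤ δ * (K * (v ^ 2 + g)) := by
    refine (neg_le_abs _).trans ?_
    rw [abs_mul]
    exact mul_le_mul hv heq (abs_nonneg _) hδ
  have h2 := mul_le_mul_of_nonneg_left h1 (sq_nonneg c)
  have h3 := mul_le_mul_of_nonneg_left hgu (mul_nonneg hK hδ)
  have h4 : c * v * (c * h * cs) ≤ k / 8 * (c * v) ^ 2 + 2 / k * (c * h * cs) ^ 2 := by
    have e : k / 8 * (c * v) ^ 2 + 2 / k * (c * h * cs) ^ 2 - c * v * (c * h * cs) =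
        k / 8 * (c * v - 4 / k * (c * h * cs)) ^ 2 := by field_simp; ring
    have : 0 ≤ k / 8 * (c * v - 4 / k * (c * h * cs)) ^ 2 := by positivity
    linarith
  have h5 : 2 / k * (c * h * cs) ^ 2 ≤ 2 / k * (c ^ 2 * h ^ 2) := by
    refine mul_le_mul_of_nonneg_left ?_ (by positivity)
    nlinarith [mul_le_mul_of_nonneg_left hcs (mul_nonneg (sq_nonneg c) (sq_nonneg h))]
  have h6 : 0 ≤ K * δ * (c * v) ^ 2 := by positivity
  nlinarith

/-- the energy inequality for `u = χ v` -/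
theorem core (hF : F.Reg) {n : ℕ} {χ v q s cs : ST → ℝ} {ψ : Fin n → ST → ℝ} {c : Fin n → ℝ}
    {k K δ e : ℝ} (hk : 0 < k) (hK : 0 ≤ K) (hχ : Tf F t χ) (hv : F.Sm v)
    (cq : ContinuousOn q F.M) (cs' : ContinuousOn s F.M) (cψ : ∀ i, ContinuousOn (ψ i) F.M)
    (h : ∀ x, (x, t) ∈ F.M → χ (x, t) ^ 2 ≤ 1 ∧ |v (x, t)| ≤ δ ∧ cs (x, t) ^ 2 ≤ 1 ∧
      |L0 F v (x, t) + q (x, t) * v (x, t) - (s (x, t) - F.shr (x, t) * cs (x, t))| ≤
        K * e1 F v (x, t) ∧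
      |s (x, t) * gau 0 1 x - ∑ i, c i * ψ i (x, t)| ≤ e * gau 0 1 x ∧
      ∀ i, ψ i (x, t) = 0 ∨ χ (x, t) = 1) :
    IG F t (F.gam (fun p => χ p * v p) fun p => χ p * v p) -
        IG F t (fun p => (χ p * v p) ^ 2 * q p) ≤
      -∑ i, c i * ∫ x, ψ i (x, t) * (χ (x, t) * v (x, t)) ∂F.mu t +
        (k / 4 + 2 * K * δ) * IG F t (e1 F fun p => χ p * v p) +
        2 / k * (e ^ 2 * IG F t (fun p => χ p ^ 2) + IG F t fun p => χ p ^ 2 * F.shr p ^ 2) +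
        (1 + 2 * K * δ) * IG F t fun p => v p ^ 2 * F.gam χ χ p := by
  have hu : Tf F t fun p => χ p * v p := hχ.mul hF hv
  have h1 : Tf F t fun p => χ p * (χ p * v p) := hχ.mul hF hu.sm
  have i1 := h1.ig_mul hF (sm_L0 hF hv).continuousOn
  have i2 := (hu.sq hF).ig_mul hF cq
  have i3 := h1.ig_mul hF cs'
  have i4 := hu.ig_sq hF
  have i5 := (hχ.sq hF).ig_mul hF (g := fun p => F.shr p ^ 2) (hF.sm_shr.continuousOn.pow 2)
  have i6 := hu.ig_e1 hF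
  have i7 := (hχ.gam hF hχ.sm).ig_mul' hF (g := fun p => v p ^ 2) (hv.continuousOn.pow 2)
  have i8 := hχ.ig_sq hF
  have p1 : IG F t (fun p => (-1) * (χ p * (χ p * v p) * L0 F v p) - (χ p * v p) ^ 2 * q p) ≤
      IG F t fun p => (-1) * (χ p * (χ p * v p) * s p) + k / 8 * (χ p * v p) ^ 2 +
        2 / k * (χ p ^ 2 * F.shr p ^ 2) + 2 * K * δ * e1 F (fun p => χ p * v p) p +
        2 * K * δ * (v p ^ 2 * F.gam χ χ p) := by
    refine IG_mono hF ((i1.cmul _).sub i2)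
      (((((i3.cmul _).add (i4.cmul _)).add (i5.cmul _)).add (i6.cmul _)).add (i7.cmul _))
      fun x hx => ?_
    obtain ⟨-, a2, a3, a4, -⟩ := h x hx
    simp only [neg_one_mul]
    refine core_pt hk hK a2 a3 ?_ a4
    rw [gam_mul hF hx hχ.sm hv]
    have := two_gam_le (F := F) χ v (x, t) (-(2 * v (x, t))) (χ (x, t))
    nlinarith
  have j : ∀ i, Integrable (fun x => ψ i (x, t) * (χ (x, t) * v (x, t))) (F.mu t) := fun i =>
    hu.int muFinS_holds hF (g := fun p => ψ i p * (χ p * v p)) ((cψ i).mul hu.sm.continuousOn)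
      fun _ _ a _ => by simp only [a, mul_zero]
  have p2 : -IG F t (fun p => χ p * (χ p * v p) * s p) ≤
      -∑ i, c i * ∫ x, ψ i (x, t) * (χ (x, t) * v (x, t)) ∂F.mu t +
        IG F t fun p => k / 8 * (χ p * v p) ^ 2 + 2 / k * (e ^ 2 * χ p ^ 2) := by
    have j1 : Integrable (fun x => ∑ i, c i * (ψ i (x, t) * (χ (x, t) * v (x, t)))) (F.mu t) :=
      integrable_finsetSum _ fun i _ => (j i).const_mul _
    simp only [← integral_const_mul]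
    rw [← integral_finsetSum _ fun i _ => (j i).const_mul _, neg_add_eq_sub, le_sub_iff_add_le,
      neg_add_le_iff_le_add', IG, IG,
      ← integral_add ((i4.cmul (k / 8)).add ((i8.cmul (e ^ 2)).cmul (2 / k))) i3]
    refine integral_mono_ae j1
      (Integrable.add ((i4.cmul (k / 8)).add ((i8.cmul (e ^ 2)).cmul (2 / k))) i3)
      ((Hu.ae_sl hF t).mono fun x hx => ?_)
    obtain ⟨-, -, -, -, a5, a6⟩ := h x hx
    have e1 : ∑ i, c i * (ψ i (x, t) * (χ (x, t) * v (x, t))) =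
        χ (x, t) * (χ (x, t) * v (x, t)) * ∑ i, c i * ψ i (x, t) := by
      rw [Finset.mul_sum]
      exact Finset.sum_congr rfl fun i _ => by rcases a6 i with a | a <;> simp only [a] <;> ring
    have hG := Gau.gau_pos 0 one_pos x
    have e2 : |χ (x, t) * (χ (x, t) * v (x, t))| * e ≤
        k / 8 * (χ (x, t) * v (x, t)) ^ 2 + 2 / k * (e ^ 2 * χ (x, t) ^ 2) := by
      rw [abs_mul, ← sq_abs (χ (x, t) * v (x, t)), ← sq_abs (χ (x, t))]
      generalize |χ (x, t) * v (x, t)| = a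
      generalize |χ (x, t)| = b
      have e0 : k / 8 * a ^ 2 + 2 / k * (e ^ 2 * b ^ 2) - b * a * e =
        k / 8 * (a - 4 / k * (e * b)) ^ 2 := by field_simp; ring
      have : 0 ≤ k / 8 * (a - 4 / k * (e * b)) ^ 2 := by positivity
      linarith
    have e3 : -(χ (x, t) * (χ (x, t) * v (x, t)) *
        (s (x, t) * gau 0 1 x - ∑ i, c i * ψ i (x, t))) ≤
        |χ (x, t) * (χ (x, t) * v (x, t))| * (e * gau 0 1 x) := by
      refine (neg_le_abs _).trans ?_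
      rw [abs_mul (χ (x, t) * _)]
      exact mul_le_mul_of_nonneg_left a5 (abs_nonneg _)
    have e4 := mul_le_mul_of_nonneg_right e2 hG.le
    simp only [e1]
    linarith
  rw [IG_sub (i1.cmul _) i2, IG_add ((((i3.cmul _).add (i4.cmul _)).add (i5.cmul _)).add (i6.cmul _))
    (i7.cmul _), IG_add (((i3.cmul _).add (i4.cmul _)).add (i5.cmul _)) (i6.cmul _),
    IG_add ((i3.cmul _).add (i4.cmul _)) (i5.cmul _), IG_add (i3.cmul _) (i4.cmul _)] at p1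
  rw [IG_add (i4.cmul _) ((i8.cmul _).cmul _)] at p2
  simp only [IG_cmul] at p1 p2
  have p3 : IG F t (fun p => (χ p * v p) ^ 2) ≤ IG F t (e1 F fun p => χ p * v p) :=
    IG_mono hF i4 i6 fun x _ => le_add_of_nonneg_right (F.gam_self_nonneg _ _)
  have p4 := mul_le_mul_of_nonneg_left p3 (show 0 ≤ k / 4 by positivity)
  rw [energy hF hχ hv]
  linarith

/-- the final absorption -/
theorem absorb {n : ℕ} {c Pi : Fin n → ℝ} {k κ K δ ε σ l A D w En Q Φ T Z X : ℝ} (hk : 0 < k)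
    (hκ : 0 < κ) (hl : 0 < l) (hD : 0 ≤ D) (hE : 0 ≤ En) (hX : 0 ≤ X)
    (h1 : k * En ≤ Q + κ⁻¹ * ∑ i, Pi i ^ 2 + Z)
    (h2 : Q ≤ -∑ i, c i * Pi i + (k / 4 + 2 * K * δ) * En +
      2 / k * ((w + ε * ‖c‖) ^ 2 * X + Φ) + T)
    (h3 : ∀ i, Pi i ^ 2 ≤ 2 * w ^ 2 + σ * En) (h4 : ‖c‖ ^ 2 ≤ D * (w ^ 2 + En)) (h5 : X ≤ A)
    (s1 : n * l * D ≤ k / 16) (s2 : n * σ * (1 / l + κ⁻¹) ≤ k / 16) (s3 : 2 * K * δ ≤ k / 16)
    (s4 : 4 / k * (ε ^ 2 * D * A) ≤ k / 16) :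
    k / 2 * En ≤ (k / 8 + 2 * n * (1 / l + κ⁻¹) + 4 / k * A) * w ^ 2 + 2 / k * Φ + T + Z := by
  have a1 : ∑ i, Pi i ^ 2 ≤ n * (2 * w ^ 2 + σ * En) := by
    simpa [mul_add] using Finset.sum_le_sum (s := Finset.univ) fun i _ => h3 i
  have a2 : -∑ i, c i * Pi i ≤ n * (l * ‖c‖ ^ 2) + 1 / l * ∑ i, Pi i ^ 2 := by
    have : ∀ i, -(c i * Pi i) ≤ l * ‖c‖ ^ 2 + 1 / l * Pi i ^ 2 := fun i => by
      have b1 : c i ^ 2 ≤ ‖c‖ ^ 2 := by
        rw [← sq_abs]; exact pow_le_pow_left₀ (abs_nonneg _) (norm_le_pi_norm c i) 2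
      have e : l * c i ^ 2 + 1 / l * Pi i ^ 2 + 2 * (c i * Pi i) = l * (c i + Pi i / l) ^ 2 := by
        field_simp; ring
      have e' : l * c i ^ 2 + 1 / l * Pi i ^ 2 ≥ 0 := by positivity
      have : 0 ≤ l * (c i + Pi i / l) ^ 2 := by positivity
      nlinarith [mul_le_mul_of_nonneg_left b1 hl.le]
    have := Finset.sum_le_sum (s := Finset.univ) fun i _ => this i
    simpa [Finset.sum_add_distrib, Finset.mul_sum] using this
  have a3 : (1 / l + κ⁻¹) * ∑ i, Pi i ^ 2 ≤ (1 / l + κ⁻¹) * (n * (2 * w ^ 2 + σ * En)) :=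
    mul_le_mul_of_nonneg_left a1 (by positivity)
  have a4 : n * l * ‖c‖ ^ 2 ≤ n * l * (D * (w ^ 2 + En)) :=
    mul_le_mul_of_nonneg_left h4 (by positivity)
  have a5 : (w + ε * ‖c‖) ^ 2 ≤ 2 * w ^ 2 + 2 * (ε ^ 2 * (D * (w ^ 2 + En))) := by
    nlinarith [sq_nonneg (w - ε * ‖c‖), mul_le_mul_of_nonneg_left h4 (sq_nonneg ε)]
  have a6 : 2 / k * ((w + ε * ‖c‖) ^ 2 * X) ≤
      2 / k * ((2 * w ^ 2 + 2 * (ε ^ 2 * (D * (w ^ 2 + En)))) * A) :=
    mul_le_mul_of_nonneg_left (mul_le_mul a5 h5 hX (by positivity)) (by positivity)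
  have b1 := mul_le_mul_of_nonneg_right s1 (add_nonneg (sq_nonneg w) hE)
  have b2 := mul_le_mul_of_nonneg_right s2 hE
  have b3 := mul_le_mul_of_nonneg_right s3 hE
  have b4 := mul_le_mul_of_nonneg_right s4 (add_nonneg (sq_nonneg w) hE)
  have e : 2 / k * ((2 * w ^ 2 + 2 * (ε ^ 2 * (D * (w ^ 2 + En)))) * A) =
      4 / k * A * w ^ 2 + 4 / k * (ε ^ 2 * D * A) * (w ^ 2 + En) := by ring
  linarith

end Crest.Agent.N250.Sg

end
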