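import Crest.Agent.N250.Sg.En
import Crest.Agent.N250.R.Stm
import Crest.Agent.N250.Tb.GR
import Crest.Agent.N250.T.Reach

/-!
# Row 250 (helper88): the leaf `R.EnS`
-/

set_option autoImplicit false
open MeasureTheory Set Filter Topology Metric
open scoped ContDiff InnerProductSpace ENNReal NNReal
open Crest.GeometryTopology.MCF

noncomputable section

namespace Crest.Agent.N250.Sg

open Tb

variable {N G : Mv} {Λ m ρ₀ ρ₁ r δ : ℝ}

theorem ctx_reach (hc : R.Ctx N Λ G m ρ₀) : ∀ y ∈ G.sl 0, y ∈ ball (0 : E) m → G.Reach (y, 0) ρ₀ :=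
  fun y hy hb => hc.greach y hy (mem_ball_zero_iff.1 hb)

theorem ctx_tub (hc : R.Ctx N Λ G m ρ₀) : Tub G 0 (tube G 0 (ball 0 m) ρ₀) (pr G 0) (sd G 0) :=
  tub hc.greg (ctx_reach hc) isOpen_ball

theorem ctx_closed (hc : R.Ctx N Λ G m ρ₀) : IsClosed (N.sl 0) :=
  hc.closed.preimage (f := fun x : E => ((x, 0) : ST)) (by fun_prop)

theorem ctx_A2 (hc : R.Ctx N Λ G m ρ₀) (h0 : 0 < ρ₀) {x : E} (hx : x ∈ tube G 0 (ball 0 m) ρ₀) :
    G.A2 (pr G 0 x, 0) ≤ (2 / ρ₀) ^ 2 := by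
  have := (reachAS_holds G hc.greg (pr G 0 x, 0) (pr_mem hc.greg (ctx_reach hc) hx) ρ₀ h0
    (pr_reach hc.greg (ctx_reach hc) hx)).2
  refine this.trans ?_
  rw [div_pow]
  exact div_le_div_of_nonneg_right (by norm_num) (by positivity)

/-- under `P(r)` the surface `N ∩ B_{r-1}` is a graph of small slope over the model -/
theorem en_gr (hc : R.Ctx N Λ G m ρ₀) (h0 : 0 < ρ₀) (h01 : ρ₀ ≤ 1) (h1 : 0 < ρ₁) (hδ : 0 < δ)
    (hδ' : δ ≤ min ρ₀ ρ₁ / 100) (hN : R.Nr N G m ρ₀ r ρ₁ δ) :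
    (∀ x ∈ N.sl 0, ‖x‖ < r - 1 →
      1 - ⟪N.n (x, 0), G.n (pr G 0 x, 0)⟫_ℝ ^ 2 ≤ 25 * δ / min ρ₀ ρ₁) ∧
    InjOn (pr G 0) (N.sl 0 ∩ ball 0 (r - 1)) := by
  set ρ := min ρ₀ ρ₁ with hρ
  have p0 : 0 < ρ := lt_min h0 h1
  have p1 : ρ ≤ 1 := (min_le_left _ _).trans h01
  have k := gr_tube (S := G) (N := N) (t := 0) (t' := 0) (ρ := ρ) (δ := δ) (U := ball 0 r)
    (V := ball 0 m) hc.greg
    (fun y hy hb => Rch.reach_mono (hc.greg.norm_n (p := (y, 0)) hy) (ctx_reach hc y hy hb)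
      (min_le_left _ _)) hc.reg isOpen_ball
    (fun y hy hb => Rch.reach_mono (hc.reg.norm_n (p := (y, 0)) hy)
      (hN y hy (mem_ball_zero_iff.1 hb)).1 (min_le_right _ _))
    (fun y hy _ => (ctx_closed hc).closure_subset hy) hδ hδ' fun w hw hb => by
      obtain ⟨-, a, b⟩ := hN w hw (mem_ball_zero_iff.1 hb)
      exact ⟨⟨_, pr_mem hc.greg (ctx_reach hc) a, pr_memU hc.greg (ctx_reach hc) a, _,
        b.trans_lt (by linarith), dec hc.greg (ctx_reach hc) a⟩, b⟩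
  have hB : ∀ x : E, ‖x‖ < r - 1 → closedBall x (2 * √(δ * ρ)) ⊆ ball 0 r := by
    intro x hx y hy
    have a : √(δ * ρ) ≤ 1 / 2 := Real.sqrt_le_iff.2 ⟨by norm_num, by nlinarith⟩
    have b := norm_sub_norm_le y x
    have c := mem_closedBall_iff_norm.1 hy
    rw [mem_ball_zero_iff]; linarith
  exact ⟨fun x hx hr => k.1 x hx (hB x hr),
    fun x hx y hy => k.2 ⟨hx.1, hB x (mem_ball_zero_iff.1 hx.2)⟩
      ⟨hy.1, hB y (mem_ball_zero_iff.1 hy.2)⟩⟩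

/-- `H1` in terms of `gam` -/
theorem H1_eq (hc : R.Ctx N Λ G m ρ₀) {s : ℝ}
    (hT : ∀ x ∈ N.sl 0, ‖x‖ < s → x ∈ tube G 0 (ball 0 m) ρ₀) :
    R.H1 N G s = ∫⁻ x in ball 0 s, ENNReal.ofReal ((sd G 0 x ^ 2 +
      N.gam (ht (sd G 0)) (ht (sd G 0)) (x, 0)) * gau 0 1 x) ∂N.mu 0 := by
  refine lintegral_congr_ae ?_
  filter_upwards [ae_restrict_of_ae (Tr.ae_sl hc.reg 0), ae_restrict_mem measurableSet_ball]
    with x hx hb
  rw [(ctx_tub hc).gam_ht hc.greg hc.reg (p := (x, 0)) hx (hT x hx (mem_ball_zero_iff.1 hb))]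
  rfl

theorem enS_holds : R.EnS := by
  intro Λ ρ₀ ρ₁ h0 h01 h1
  obtain ⟨C, hC, hg⟩ := gau_out
  set L := max Λ 0 with hL
  have L0 : 0 ≤ L := le_max_right _ _
  have p0 : 0 < min ρ₀ ρ₁ := lt_min h0 h1
  have CL : 0 ≤ C * L := by positivity
  refine ⟨min ρ₀ ρ₁ / 100, 3 * (2 / ρ₀) ^ 2 + 2 + 5 * (C * L), by positivity, by positivity,
    fun N G m r ε M B hc hr hm hN hM hB hε hH hG => ?_⟩
  have hAR : N.AR L := fun t y s hs => (hc.ar t y s hs).trans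
    (ENNReal.ofReal_le_ofReal (mul_le_mul_of_nonneg_right (le_max_left _ _) (sq_nonneg s)))
  obtain ⟨g1, g2⟩ := hg N L 0 L0 hAR
  have hT : ∀ x ∈ N.sl 0, ‖x‖ < r - 1 → x ∈ tube G 0 (ball 0 m) ρ₀ := fun x hx h =>
    (hN x hx (by linarith)).2.1
  rw [H1_eq hc hT] at hH
  have key := fs_le (e := ε) (B' := ball 0 m) (ctx_tub hc) hc.greg hc.reg (κ := 2 / ρ₀)
    (by positivity) hB hM CL (by positivity)
    (fun x hx => hT x hx.1 (mem_ball_zero_iff.1 hx.2))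
    (en_gr hc h0 h01 h1 (by positivity) le_rfl hN).2 (fun x hx h => ?_) hG hH g1
    (g2 5 (r - 1) (by norm_num) (by linarith))
  · have e : -(1 - (5 : ℝ)⁻¹) * (r - 1) ^ 2 / 4 = -(r - 1) ^ 2 / 5 := by ring
    rw [e] at key
    have x0 := Real.exp_pos (-(r - 1) ^ 2 / 5)
    have k0 : 0 ≤ 3 * (2 / ρ₀) ^ 2 + 2 := by positivity
    nlinarith [mul_nonneg k0 (sq_nonneg ε), mul_nonneg k0 x0.le, mul_nonneg CL hM,
      mul_nonneg CL (sq_nonneg ε)]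
  · have a := hT x hx h
    have b := pr_memU hc.greg (ctx_reach hc) a
    refine ⟨ctx_A2 hc h0 a, ?_, b, hε _ (pr_mem hc.greg (ctx_reach hc) a) (mem_ball_zero_iff.1 b)⟩
    have c := (hN x hx (by linarith)).2.2
    have d : min ρ₀ ρ₁ ≤ ρ₀ := min_le_left _ _
    rw [← mul_div_assoc, div_le_iff₀ h0]
    linarith

end Crest.Agent.N250.Sg

end
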