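import Crest.Agent.N250.Sg.Stm
import Crest.Agent.N250.R.Step

/-!
# Row 250, static Gaussian estimate (helper89): `LagS`, `CoDS`
-/

set_option autoImplicit false
open MeasureTheory Set Filter Topology Metric
open scoped ContDiff InnerProductSpace
open Crest.GeometryTopology.MCF

noncomputable section

namespace Crest.Agent.N250.Sg

theorem fv_zero (G : Mv) {f : E → ℝ} {Rf : ℝ} (h : ∀ z, Rf ≤ ‖z‖ → f z = 0) {y : E}
    (hy : Rf < ‖y‖) (t : ℝ) : G.fv f (y, t) = 0 := by
  have h1 : f =ᶠ[𝓝 y] fun _ => 0 :=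
    (continuous_norm.continuousAt.eventually (lt_mem_nhds hy)).mono fun z hz => h z hz.le
  simp [Mv.fv, h1.gradient_eq, h y hy.le]

theorem lagS_holds : LagS := by
  intro n ρ₀ M Rf ε hρ hRf hε
  set K : ℝ := n * (|M| * (1 + 2 * (2 / ρ₀))) + 1 with hK
  have hK0 : 0 < K := by positivity
  have hc : Continuous fun z : E => (gau 0 1 z)⁻¹ :=
    (A.gau_cont 0 1).inv₀ fun z => (A.gau_pos one_pos 0 z).ne'
  obtain ⟨δ, hδ, hu⟩ := Metric.uniformContinuousOn_iff_le.1
    ((isCompact_closedBall (0 : E) (Rf + 1)).uniformContinuousOn_of_continuous hc.continuousOn)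
    (ε / K) (by positivity)
  refine ⟨min δ (1 / 2), by positivity, fun G m w f c x y hG hL hy hm hR hd hf hz => ?_⟩
  have hd1 := hd.trans (min_le_left _ _)
  have hd2 := hd.trans (min_le_right _ _)
  rw [dist_eq_norm] at hd2
  have hxy := norm_le_norm_add_norm_sub' x y
  refine ⟨?_, fun hx i => fv_zero G (hz i) (by linarith) 0⟩
  have h1 := hL y hy hm
  set P := ∑ i, c i * G.fv (f i) (y, 0) with hP
  have gx := A.gau_pos one_pos 0 x
  have gy := A.gau_pos one_pos 0 y
  have h2 : |((gau 0 1 y)⁻¹ - (gau 0 1 x)⁻¹) * P| ≤ ε * ‖c‖ := by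
    by_cases h : Rf < ‖y‖
    · rw [hP, Finset.sum_eq_zero fun i _ => by rw [fv_zero G (hz i) h, mul_zero], mul_zero,
        abs_zero]
      positivity
    · have h3 := hu y (mem_closedBall_zero_iff.2 (by linarith [not_lt.1 h])) x
        (mem_closedBall_zero_iff.2 (by linarith [not_lt.1 h])) (by rwa [dist_comm])
      have h4 : |P| ≤ K * ‖c‖ := by
        refine (Finset.abs_sum_le_sum_abs _ _).trans ((Finset.sum_le_card_nsmul _ _
          (‖c‖ * (|M| * (1 + 2 * (2 / ρ₀)))) fun i _ => ?_).trans ?_)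
        · rw [abs_mul]
          exact mul_le_mul (norm_le_pi_norm c i) ((Tb.abs_fv_le hG hy (by positivity)
            (Sp.A2_le hG hy hρ hR) (hf i)).trans
            (mul_le_mul_of_nonneg_right (le_abs_self M) (by positivity))) (abs_nonneg _)
            (norm_nonneg _)
        · simp only [Finset.card_univ, Fintype.card_fin, nsmul_eq_mul, hK]
          nlinarith [norm_nonneg c]
      rw [abs_mul]
      calc _ ≤ ε / K * (K * ‖c‖) := mul_le_mul h3 h4 (abs_nonneg _) (by positivity)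
        _ = _ := by field_simp
  have e : G.shr (y, 0) * gau 0 1 x - P = gau 0 1 x * ((gau 0 1 y)⁻¹ *
      (gau 0 1 y * G.shr (y, 0) - P) + ((gau 0 1 y)⁻¹ - (gau 0 1 x)⁻¹) * P) := by
    field_simp
    ring
  rw [e, abs_mul, abs_of_pos gx, mul_comm]
  refine mul_le_mul_of_nonneg_right ((abs_add_le _ _).trans (add_le_add ?_ h2)) gx.le
  rw [abs_mul, abs_of_pos (inv_pos.2 gy), inv_mul_le_iff₀ gy, mul_comm _ w]
  exact h1

theorem coDS_holds : CoDS := by
  intro ρ₀ M hρ
  refine ⟨9 * (4 / ρ₀ + 1) + |M| * (5 + 4 / ρ₀), by positivity,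
    fun G S f δ x y hG hS hf hδ hx hy hR hd hn hA => ?_⟩
  have hδ0 : 0 < δ := dist_nonneg.trans_lt hd
  have hM := hf.nonneg
  rw [abs_of_nonneg hM]
  have hA2 := Sp.A2_le hG hx hρ hR
  have eG : G.A2 (x, 0) = ∑ a, ∑ b, G.A a b (x, 0) * G.A a b (x, 0) := by simp [Mv.A2]
  have eS : S.A2 (y, 0) = ∑ a, ∑ b, S.A a b (y, 0) * S.A a b (y, 0) := by simp [Mv.A2]
  have h1 : ∀ a b, |G.A a b (x, 0)| ≤ 2 / ρ₀ := fun a b => by
    refine abs_le_of_sq_le_sq' (le_trans ?_ hA2) (by positivity) |> abs_le.2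
    rw [eG, sq]
    exact (Finset.single_le_sum (f := fun b => G.A a b (x, 0) * G.A a b (x, 0))
      (fun _ _ => mul_self_nonneg _) (Finset.mem_univ b)).trans
      (Finset.single_le_sum (f := fun a => ∑ b, G.A a b (x, 0) * G.A a b (x, 0))
        (fun _ _ => Finset.sum_nonneg fun _ _ => mul_self_nonneg _) (Finset.mem_univ a))
  constructor
  · have h2 : ∀ a b, |G.A a b (x, 0) * G.A a b (x, 0) - S.A a b (y, 0) * S.A a b (y, 0)| ≤
        (4 / ρ₀ + 1) * δ := fun a b => by
      rw [← sq, ← sq, sq_sub_sq, abs_mul]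
      refine mul_le_mul ?_ (hA a b).le (abs_nonneg _) (by positivity)
      have h3 := abs_le.1 (h1 a b)
      have h4 := abs_lt.1 (hA a b)
      have e : 4 / ρ₀ = 2 * (2 / ρ₀) := by ring
      rw [abs_le]
      constructor <;> linarith [h3.1, h3.2, h4.1, h4.2]
    rw [eG, eS, ← Finset.sum_sub_distrib]
    refine (Finset.abs_sum_le_sum_abs _ _).trans ((Finset.sum_le_card_nsmul _ _
      (3 * ((4 / ρ₀ + 1) * δ)) fun a _ => ?_).trans ?_)
    · rw [← Finset.sum_sub_distrib]
      refine (Finset.abs_sum_le_sum_abs _ _).trans ((Finset.sum_le_card_nsmul _ _ _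
        fun b _ => h2 a b).trans (by simp))
    · simp only [Finset.card_univ, Fintype.card_fin, nsmul_eq_mul, Nat.cast_ofNat]
      have : 0 ≤ M * (5 + 4 / ρ₀) * δ := by positivity
      nlinarith
  · rw [dist_eq_norm] at hd
    have h2 := hf.l1 y (x - y)
    have h3 := hf.b2 y (x - y)
    rw [add_sub_cancel] at h2 h3
    have h4 : |⟪gradient f x - gradient f y, G.n (x, 0)⟫_ℝ| ≤ M * δ := by
      refine (abs_real_inner_le_norm _ _).trans ?_
      rw [hG.norm_n hx, mul_one]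
      exact h2.trans (by gcongr)
    have h5 : |⟪gradient f y, G.n (x, 0) - S.n (y, 0)⟫_ℝ| ≤ M * δ :=
      (abs_real_inner_le_norm _ _).trans (mul_le_mul (hf.b1 y) hn.le (norm_nonneg _) hM)
    have h6 : |f x - f y| ≤ 2 * (M * δ) := by
      have h7 : |⟪gradient f y, x - y⟫_ℝ| ≤ M * δ :=
        (abs_real_inner_le_norm _ _).trans (mul_le_mul (hf.b1 y) hd.le (norm_nonneg _) hM)
      have h8 : M * ‖x - y‖ ^ 2 ≤ M * δ :=
        mul_le_mul_of_nonneg_left (by nlinarith [norm_nonneg (x - y)]) hM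
      have := abs_add_le (f x - f y - ⟪gradient f y, x - y⟫_ℝ) ⟪gradient f y, x - y⟫_ℝ
      rw [sub_add_cancel] at this
      linarith
    have h7 : |G.H (x, 0) - S.H (y, 0)| ≤ 3 * δ := by
      simp only [Mv.H, Finset.sum_apply, ← Finset.sum_sub_distrib]
      exact (Finset.abs_sum_le_sum_abs _ _).trans ((Finset.sum_le_card_nsmul _ _ δ
        fun a _ => (hA a a).le).trans (by simp))
    have h8 : |G.H (x, 0) * (f x - f y)| ≤ 2 / ρ₀ * (2 * (M * δ)) := by
      rw [abs_mul]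
      exact mul_le_mul (Sp.abs_H_le hG hx hρ hR) h6 (abs_nonneg _) (by positivity)
    have h9 : |(G.H (x, 0) - S.H (y, 0)) * f y| ≤ 3 * δ * M := by
      rw [abs_mul]
      exact mul_le_mul h7 (hf.b0 y) (abs_nonneg _) (by positivity)
    have e : G.fv f (x, 0) - S.fv f (y, 0) = ⟪gradient f x - gradient f y, G.n (x, 0)⟫_ℝ +
        ⟪gradient f y, G.n (x, 0) - S.n (y, 0)⟫_ℝ + G.H (x, 0) * (f x - f y) +
        (G.H (x, 0) - S.H (y, 0)) * f y := by
      simp only [Mv.fv, inner_sub_left, inner_sub_right]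
      ring
    have e2 : (9 * (4 / ρ₀ + 1) + M * (5 + 4 / ρ₀)) * δ = 9 * (4 / ρ₀ + 1) * δ +
        (M * δ + M * δ + 2 / ρ₀ * (2 * (M * δ)) + 3 * δ * M) := by ring
    have : 0 ≤ 9 * (4 / ρ₀ + 1) * δ := by positivity
    rw [e, e2]
    refine le_add_of_nonneg_of_le this ((abs_add_le _ _).trans (add_le_add
      ((abs_add_le _ _).trans (add_le_add ((abs_add_le _ _).trans (add_le_add h4 h5)) h8)) h9))

end Crest.Agent.N250.Sg

end
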