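import Crest.Agent.N250.Sg.Stm
import Crest.Agent.N250.Tb.Dual
import Crest.Agent.N250.Tb.Surj

/-!
# Row 250, static Gaussian estimate (helper80): MOMENT
-/

set_option autoImplicit false
open MeasureTheory Set Filter Topology Function Metric
open scoped ContDiff InnerProductSpace
open Crest.GeometryTopology.MCF

noncomputable section

namespace Crest.Agent.N250.Sg

open Tb R

variable {N G : Mv} {Λ m ρ₀ ρ₁ r δ : ℝ} {x : E}

theorem reach_le {F : Mv} {p : ST} {ρ ρ' : ℝ} (hn : ‖F.n p‖ = 1) (h : F.Reach p ρ)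
    (h1 : ρ' ≤ ρ) : F.Reach p ρ' := fun y hy => by
  have e : ‖(ρ - ρ') • F.n p‖ = ρ - ρ' := by
    rw [norm_smul, hn, mul_one, Real.norm_of_nonneg (by linarith)]
  have a1 := dist_triangle y (p.1 + ρ' • F.n p) (p.1 + ρ • F.n p)
  have a2 := dist_triangle y (p.1 - ρ' • F.n p) (p.1 - ρ • F.n p)
  rw [dist_comm (p.1 + _), dist_eq_norm (p.1 + _), add_sub_add_left_eq_sub, ← sub_smul, e] at a1
  rw [dist_eq_norm (p.1 - _), sub_sub_sub_cancel_left, ← sub_smul, e] at a2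
  exact ⟨by linarith [(h y hy).1], by linarith [(h y hy).2]⟩

/-- GR in the standing situation -/
theorem ctx_gr2 (h : Ctx N Λ G m ρ₀) (hr : Nr N G m ρ₀ r ρ₁ δ) (h0 : 0 < δ) (h1 : ρ₀ ≤ 1)
    (hδ : δ ≤ min ρ₀ ρ₁ / 100) :
    (∀ x ∈ N.sl 0, ‖x‖ < r - 1 →
      1 - ⟪N.n (x, 0), G.n (pr G 0 x, 0)⟫_ℝ ^ 2 ≤ 25 * δ / min ρ₀ ρ₁) ∧
    InjOn (pr G 0) (N.sl 0 ∩ ball 0 (r - 1)) := by
  have m1 := min_le_left ρ₀ ρ₁
  have k := gr_tube (V := ball 0 m) (U := ball 0 r) (ρ := min ρ₀ ρ₁) h.greg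
    (fun y hy hb => reach_le (h.greg.norm_n (p := (y, 0)) hy) (h.hR y hy hb) m1) h.reg isOpen_ball
    (fun y hy hb => reach_le (h.reg.norm_n (p := (y, 0)) hy) (hr y hy (mem_ball_zero_iff.1 hb)).1
      (min_le_right _ _)) (fun y hy _ => h.cl.closure_subset hy) h0 hδ fun w hw hb => by
      obtain ⟨-, a, b⟩ := hr w hw (mem_ball_zero_iff.1 hb)
      exact ⟨⟨_, pr_mem h.greg h.hR a, pr_memU h.greg h.hR a, _, by linarith,
        Tb.dec h.greg h.hR a⟩, b⟩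
  have hb : ∀ x : E, ‖x‖ < r - 1 → closedBall x (2 * √(δ * min ρ₀ ρ₁)) ⊆ ball 0 r := fun x hx =>
    closedBall_subset_ball' (by
      have : √(δ * min ρ₀ ρ₁) ≤ 1 / 2 := Real.sqrt_le_iff.2 ⟨by norm_num, by nlinarith⟩
      rw [dist_zero_right]; linarith)
  exact ⟨fun x hx hx' => k.1 x hx (hb x hx'),
    fun x hx y hy => k.2 ⟨hx.1, hb x (mem_ball_zero_iff.1 hx.2)⟩
      ⟨hy.1, hb y (mem_ball_zero_iff.1 hy.2)⟩⟩

/-- SURJ in the standing situation -/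
theorem ctx_surj {S : Mv} {R₁ : ℝ} (h : Ctx N Λ G m ρ₀) (hr : Nr N G m ρ₀ r ρ₁ δ) (h0 : 0 < δ)
    (h1 : ρ₀ ≤ 1) (hδ : δ ≤ min ρ₀ ρ₁ / 200) (h2 : R₁ ≤ r) (h3 : R₁ ≤ m) (hn : Near G S R₁ δ)
    (hd : Hd N S R₁ δ) {y : E} (hy : y ∈ G.sl 0) (hy' : ‖y‖ < R₁ - 2) :
    ∃ x ∈ N.sl 0, pr G 0 x = y ∧ dist x y ≤ 8 * δ := by
  have m1 := min_le_left ρ₀ ρ₁
  have hR := fun y hy hb => reach_le (h.greg.norm_n (p := (y, 0)) hy) (h.hR y hy hb) m1
  have hs : √(2 * δ * min ρ₀ ρ₁) ≤ 1 / 2 := Real.sqrt_le_iff.2 ⟨by norm_num, by nlinarith⟩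
  obtain ⟨x, a, b, c, d⟩ := surj (V := ball 0 m) (U := ball 0 r) (ρ := min ρ₀ ρ₁) (δ := 2 * δ)
    h.greg isOpen_ball hR (cl_of_proper h.gprop fun y hy => ⟨hy, trivial⟩) h.reg isOpen_ball
    (fun y hy hb => reach_le (h.reg.norm_n (p := (y, 0)) hy) (hr y hy (mem_ball_zero_iff.1 hb)).1
      (min_le_right _ _)) (fun y hy _ => h.cl.closure_subset hy) (by linarith) (by linarith) hy
    (closedBall_subset_ball' (by rw [dist_zero_right]; linarith))
    (closedBall_subset_ball' (by rw [dist_zero_right]; linarith)) fun w hw hb => by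
      have := norm_le_of_mem_closedBall hb
      obtain ⟨z, hz, z1, -⟩ := hn.1 w hw (by linarith)
      have := norm_le_insert' z w
      rw [← dist_eq_norm, dist_comm] at this
      obtain ⟨u, hu, u1⟩ := hd.2 z hz (by linarith)
      exact ⟨u, hu, by linarith [dist_triangle_right w u z]⟩
  exact ⟨x, a, c, by rw [← c, dist_pr h.greg hR b]; linarith⟩

theorem h1_ne_top (h : Ctx N Λ G m ρ₀) (hr : Nr N G m ρ₀ r ρ₁ δ) (hδ : δ ≤ 1) {s : ℝ} (h0 : 0 < s)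
    (hs : s ≤ r) : H1 N G s ≠ ⊤ := by
  refine ne_top_of_le_ne_top (b := ∫⁻ _ in ball 0 s, ENNReal.ofReal 2 ∂N.mu 0) ?_
    (lintegral_mono_ae ?_)
  · rw [setLIntegral_const]
    exact ENNReal.mul_ne_top ENNReal.ofReal_ne_top
      (ne_top_of_le_ne_top ENNReal.ofReal_ne_top (h.ar 0 0 s h0))
  · filter_upwards [ae_restrict_of_ae (Hu.ae_sl h.reg 0), ae_restrict_mem measurableSet_ball]
      with x hx hb
    have a := (sq_le_one_iff_abs_le_one _).2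
      ((hr x hx ((mem_ball_zero_iff.1 hb).trans_le hs)).2.2.trans hδ)
    refine ENNReal.ofReal_le_ofReal ?_
    have := gau_le_one x
    have := Gau.gau_pos 0 one_pos x
    nlinarith [sq_nonneg ⟪N.n (x, 0), G.n (pr G 0 x, 0)⟫_ℝ]

theorem momS_holds : MomS := by
  intro Λ ρ₀ ρ₁ M Rf σ hρ hρ1 hρ₁ hRf hσ
  set ρ := min ρ₀ ρ₁ with hρd
  have ρ0 : 0 < ρ := lt_min hρ hρ₁
  have m1 : ρ ≤ ρ₀ := min_le_left _ _
  set κ := 2 / ρ₀ with hκ
  have hκ0 : 0 ≤ κ := by positivity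
  set Z := 4 * Real.pi * Real.exp ((Rf + 1) ^ 2 / 4) with hZ
  have hZ0 : 0 < Z := by have := Real.pi_pos; positivity
  set K := 2 * (M * (3 + 8 * κ ^ 2)) ^ 2 * (26 / ρ * (|Λ| * (Rf + 1) ^ 2)) * Z with hK
  have hK0 : 0 ≤ K := by positivity
  refine ⟨min (ρ / 200) (σ / (K + 1)), by positivity, ?_⟩
  intro N G S m r R₁ δ w f d0 hδ h hR₁ hr hm hN hNe hH hf hf0 hw
  have d1 : δ ≤ ρ / 200 := hδ.trans (min_le_left _ _)
  have d2 : δ * K ≤ σ := by
    have := (le_div_iff₀ (by positivity)).1 (hδ.trans (min_le_right _ _))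
    nlinarith
  obtain ⟨g1, g2⟩ := ctx_gr2 h hN d0 hρ1 (by linarith)
  set A := N.sl 0 ∩ ball 0 (Rf + 1) with hA
  have mA : MeasurableSet A := (Hu.meas_sl h.reg 0).inter measurableSet_ball
  have nA : ∀ x ∈ A, ‖x‖ < Rf + 1 := fun x hx => mem_ball_zero_iff.1 hx.2
  have hT := fun x (hx : x ∈ A) => (hN x hx.1 (by linarith [nA x hx])).2
  have hs : A ⊆ N.sl 0 ∩ tube G 0 (ball 0 m) ρ₀ := fun x hx => ⟨hx.1, (hT x hx).1⟩
  have hfin : N.mu 0 A ≤ ENNReal.ofReal (|Λ| * (Rf + 1) ^ 2) :=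
    (measure_mono inter_subset_right).trans ((h.ar 0 0 _ (by linarith)).trans
      (ENNReal.ofReal_le_ofReal (by gcongr; exact le_abs_self Λ)))
  have hfin' : N.mu 0 A ≠ ⊤ := (hfin.trans_lt ENNReal.ofReal_lt_top).ne
  have key := h.tub.pair h.greg h.reg mA hs
    (g2.mono (inter_subset_inter_right _ (ball_subset_ball (by linarith)))) hfin' hκ0
    (fun x hx => h.A2_le hρ (hT x hx).1)
    (fun x hx => by
      have := mul_le_mul_of_nonneg_right ((hT x hx).2.trans (show δ ≤ ρ₀ / 4 by linarith)) hκ0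
      rwa [show ρ₀ / 4 * κ = 1 / 2 by rw [hκ]; field_simp; norm_num] at this)
    (fun x hx => (hT x hx).2.trans (by linarith)) hf
    (fun x hx h0 => ⟨hx, mem_ball_zero_iff.2 (by linarith [not_le.1 fun a => h0 (hf0 x a)])⟩)
    fun y hy h0 => by
      have a := not_le.1 fun a => h0 (hf0 y a)
      obtain ⟨x, b, c, d⟩ := ctx_surj h hN d0 hρ1 d1 hr (by linarith) hNe hH hy (by linarith)
      have := norm_le_insert' x y
      rw [← dist_eq_norm] at this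
      exact ⟨x, ⟨b, mem_ball_zero_iff.2 (by linarith)⟩, c⟩
  obtain ⟨i1, e1⟩ := h1_int h hN mA inter_subset_left
    (fun x hx => mem_ball_zero_iff.2 (by linarith [nA x hx])) inter_subset_right
    ENNReal.toReal_nonneg
    (ENNReal.ofReal_toReal (h1_ne_top h hN (by linarith) (by linarith) (by linarith))).ge
  have hb : ∀ x ∈ A, |sd G 0 x ^ 2 + N.gam (ht (sd G 0)) (ht (sd G 0)) (x, 0)| ≤ 26 / ρ * δ :=
    fun x hx => by
      have a1 := g1 x hx.1 (by linarith [nA x hx])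
      have a2 := h.tub.gam_ht h.greg h.reg (p := (x, 0)) hx.1 (hT x hx).1
      have a3 : sd G 0 x ^ 2 ≤ δ ^ 2 := sq_le_sq' (abs_le.1 (hT x hx).2).1 (abs_le.1 (hT x hx).2).2
      have a4 : δ ^ 2 ≤ δ / ρ := by
        rw [le_div_iff₀ ρ0]
        have : δ * ρ ≤ 1 := mul_le_one₀ (by linarith) ρ0.le (by linarith)
        nlinarith
      rw [abs_of_nonneg (add_nonneg (sq_nonneg _) (Mv.gam_self_nonneg _ _)), a2]
      change _ + (1 - ⟪N.n (x, 0), G.n (pr G 0 x, 0)⟫_ℝ ^ 2) ≤ _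
      have : 26 / ρ * δ = δ / ρ + 25 * δ / ρ := by ring
      linarith
  have i2 : IntegrableOn (fun x => sd G 0 x ^ 2 + N.gam (ht (sd G 0)) (ht (sd G 0)) (x, 0)) A
      (N.mu 0) := Tub.intg_bdd mA hfin' (((h.tub.ssd.continuousOn.mono fun x hx =>
        (hs hx).2).pow 2).add ((h.tub.cont_gam h.greg h.reg 0).mono hs)) hb
  set J := ∫ x in A, (sd G 0 x ^ 2 + N.gam (ht (sd G 0)) (ht (sd G 0)) (x, 0)) ∂N.mu 0 with hJ
  have J0 : 0 ≤ J := integral_nonneg fun x => add_nonneg (sq_nonneg _) (Mv.gam_self_nonneg _ _)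
  have J1 : J ≤ 26 / ρ * δ * (|Λ| * (Rf + 1) ^ 2) := by
    refine (Real.le_norm_self _).trans
      ((norm_setIntegral_le_of_norm_le_const hfin'.lt_top hb).trans ?_)
    gcongr
    exact ENNReal.toReal_le_of_le_ofReal (by positivity) hfin
  have J2 : J ≤ Z * (H1 N G (Rf + 1)).toReal := by
    refine le_trans ?_ (mul_le_mul_of_nonneg_left e1 hZ0.le)
    rw [← integral_const_mul]
    refine setIntegral_mono_on i2 (i1.const_mul _) mA fun x hx => ?_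
    have := mul_le_mul_of_nonneg_left (gau_ge (nA x hx).le)
      (add_nonneg (sq_nonneg (sd G 0 x)) (Mv.gam_self_nonneg (F := N) (ht (sd G 0)) (x, 0)))
    linarith
  rw [← mu_restrict h.reg]
  set I := ∫ x in A, sd G 0 x * G.fv f (pr G 0 x, 0) ∂N.mu 0
  set C := M * (3 + 8 * κ ^ 2)
  have a1 : |I| ≤ w + C * J := by
    have := abs_le.1 key
    have := abs_le.1 hw
    rw [abs_le]; constructor <;> linarith
  have a2 : I ^ 2 ≤ (w + C * J) ^ 2 := sq_le_sq' (abs_le.1 a1).1 (abs_le.1 a1).2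
  have a3 : J * J ≤ 26 / ρ * δ * (|Λ| * (Rf + 1) ^ 2) * (Z * (H1 N G (Rf + 1)).toReal) :=
    mul_le_mul J1 J2 J0 (by positivity)
  have a4 := mul_le_mul_of_nonneg_left a3 (show 0 ≤ 2 * C ^ 2 by positivity)
  have a5 := mul_le_mul_of_nonneg_right d2 (ENNReal.toReal_nonneg (a := H1 N G (Rf + 1)))
  rw [hK] at a5
  nlinarith [sq_nonneg (w - C * J)]

end Crest.Agent.N250.Sg

end
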