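import Crest.Agent.N250.Sg.Core
import Crest.Agent.N250.Sg.Lag
import Crest.Agent.N250.Sg.Mom
import Crest.Agent.N250.Tb.Dual2
import Crest.Agent.N250.Sg.EnS
import Crest.Agent.N250.Tb.Co
import Crest.Agent.N250.Tr.Inst2

/-!
# Row 250, static Gaussian estimate (helper9), part 4: assembly of `R.StatS`
-/

set_option autoImplicit false
open MeasureTheory Set Filter Topology Metric
open scoped ContDiff InnerProductSpace
open Crest.GeometryTopology.MCF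

noncomputable section

namespace Crest.Agent.N250.Sg

open Tb

/-- the bound for the multipliers -/
def DualS : Prop := ∀ (S : Mv) (Λ ρ₀ ρ₁ : ℝ) (n : ℕ) (f : Fin n → E → ℝ), S.IsShr →
  Cons S f → 0 < ρ₀ → ρ₀ ≤ 1 → 0 < ρ₁ →
  ∃ δ R₁ C : ℝ, 0 < δ ∧ 0 < C ∧ ∀ (N G : Mv) (m r R' r' δ' w M : ℝ) (c : Fin n → ℝ),
    R.Ctx N Λ G m ρ₀ → 0 < δ' → δ' ≤ δ → R₁ ≤ r → r + 3 ≤ m → R₁ ≤ R' → R₁ ≤ r' →
    R.Nr N G m ρ₀ r ρ₁ δ' → Near G S R' δ' → R.Hd N S R' δ' → R.Lag G f c m w →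
    N.dis ≤ ENNReal.ofReal (w ^ 2) → 0 < w → 0 ≤ M → R.H1 N G r' ≤ ENNReal.ofReal (M ^ 2) →
    ‖c‖ ≤ C * (w + M)

/-- the part of `N` in the ball of radius `r` -/
def rs (N : Mv) (r : ℝ) : Mv := N.res (ball 0 r ×ˢ univ)

variable {N G : Mv} {Λ m ρ₀ ρ₁ r δ : ℝ}

theorem op_rs (r : ℝ) : IsOpen ((ball 0 r ×ˢ univ : Set ST)) := isOpen_ball.prod isOpen_univ

theorem rs_reg (h : N.Reg) (r : ℝ) : (rs N r).Reg := Tr.res_reg (op_rs r) h

theorem rs_mem {x : E} {t : ℝ} : (x, t) ∈ (rs N r).M ↔ (x, t) ∈ N.M ∧ ‖x‖ < r := by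
  simp [rs, Mv.res]

theorem rs_mu (N : Mv) (r t : ℝ) : (rs N r).mu t = (N.mu t).restrict (ball 0 r) := by
  rw [rs, Tr.res_mu (op_rs r)]; congr 1; ext x; simp

theorem rs_shr {x : E} {t : ℝ} (hx : ‖x‖ < r) : (rs N r).shr (x, t) = N.shr (x, t) := by
  rw [Mv.shr, Mv.shr, rs, Tr.res_H (op_rs r) (by simpa using hx)]; rfl

theorem rs_tube (hc : R.Ctx N Λ G m ρ₀) (hN : R.Nr N G m ρ₀ r ρ₁ δ) {p : ST}
    (hp : p ∈ (rs N r).M) : p.1 ∈ tube G 0 (ball 0 m) ρ₀ :=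
  have h := (rs_mem (x := p.1) (t := p.2)).1 hp
  (hN p.1 ((hc.st.mem _ _).1 h.1) h.2).2.1

theorem rs_sm (hc : R.Ctx N Λ G m ρ₀) (hN : R.Nr N G m ρ₀ r ρ₁ δ) : (rs N r).Sm (ht (sd G 0)) :=
  fun _ hp => ((ctx_tub hc).ht_at (rs_tube hc hN hp)).contDiffWithinAt

theorem rs_cont (hc : R.Ctx N Λ G m ρ₀) (hN : R.Nr N G m ρ₀ r ρ₁ δ) {g : ST → ℝ}
    (hg : ContinuousOn g G.M) : ContinuousOn (fun p : ST => g (pr G 0 p.1, 0)) (rs N r).M :=
  ((ctx_tub hc).cont_pull hg).comp continuous_fst.continuousOn fun _ hp => rs_tube hc hN hp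

theorem rs_tf (hc : R.Ctx N Λ G m ρ₀) (hr : 1 ≤ r) : Tf (rs N r) 0 (cut2 r) := by
  refine ⟨(contDiff_cut2 r).contDiffOn, (N.sl 0 ∩ closedBall 0 (r - 1 / 2)) ×ˢ {0},
    ((isCompact_closedBall _ _).inter_left (ctx_closed hc)).prod isCompact_singleton, ?_, ?_⟩
  · rintro ⟨x, t⟩ ⟨⟨h1, h2⟩, rfl⟩
    exact rs_mem.2 ⟨h1, by have := mem_closedBall_zero_iff.1 h2; linarith⟩
  · rintro ⟨x, t⟩ hp rfl hK
    refine cut2_zero hr (not_lt.1 fun h => hK ⟨⟨(rs_mem.1 hp).1, ?_⟩, rfl⟩)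
    exact mem_closedBall_zero_iff.2 h.le

theorem IG_ofReal {F : Mv} {t : ℝ} {g : ST → ℝ} (hF : F.Reg) (hg : Ig F t g)
    (h0 : ∀ x, (x, t) ∈ F.M → 0 ≤ g (x, t)) :
    ENNReal.ofReal (IG F t g) = ∫⁻ x, ENNReal.ofReal (g (x, t) * gau 0 1 x) ∂F.mu t :=
  ofReal_integral_eq_lintegral_ofReal hg ((Hu.ae_sl hF t).mono fun x hx =>
    mul_nonneg (h0 x hx) (Gau.gau_pos 0 one_pos x).le)

theorem H1_le (hc : R.Ctx N Λ G m ρ₀) (hN : R.Nr N G m ρ₀ r ρ₁ δ) (hr : 1 ≤ r) {s : ℝ}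
    (hs : s ≤ r - 1) : R.H1 N G s ≤
      ENNReal.ofReal (IG (rs N r) 0 (e1 (rs N r) fun p => cut2 r p * ht (sd G 0) p)) := by
  have hF := rs_reg hc.reg r
  have hχ := rs_tf hc hr
  rw [IG_ofReal hF ((hχ.mul hF (rs_sm hc hN)).ig_e1 hF) fun _ _ => e1_nonneg _ _ _, rs_mu]
  refine le_trans (le_of_eq (lintegral_congr_ae ?_))
    (lintegral_mono_set (ball_subset_ball (by linarith : s ≤ r)))
  filter_upwards [ae_restrict_of_ae (Hu.ae_sl hc.reg 0), ae_restrict_mem measurableSet_ball]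
    with x hx hb
  have h1 : ‖x‖ < r - 1 := (mem_ball_zero_iff.1 hb).trans_le hs
  have hp : (x, (0 : ℝ)) ∈ (rs N r).M := rs_mem.2 ⟨hx, by linarith⟩
  have h2 := gam_cut2_zero hF hp hr (Or.inl h1)
  have h3 := (rs N r).gam_sq_le (cut2 r) (ht (sd G 0)) (x, 0)
  rw [h2, zero_mul] at h3
  rw [e1, gam_mul hF hp hχ.sm (rs_sm hc hN), h2, pow_eq_zero_iff (two_ne_zero) |>.1
    (le_antisymm h3 (sq_nonneg _)), cut2_one hr (p := (x, 0)) h1.le,
    (ctx_tub hc).gam_ht hc.greg hF hp (rs_tube hc hN hp)]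
  simp only [one_mul, one_pow, mul_zero, add_zero]
  rfl

theorem phi_le (hc : R.Ctx N Λ G m ρ₀) (hr : 1 ≤ r) {w : ℝ}
    (hd : N.dis ≤ ENNReal.ofReal (w ^ 2)) :
    IG (rs N r) 0 (fun p => cut2 r p ^ 2 * (rs N r).shr p ^ 2) ≤ w ^ 2 := by
  have hF := rs_reg hc.reg r
  refine (ENNReal.ofReal_le_ofReal_iff (sq_nonneg w)).1 (le_trans ?_ hd)
  rw [IG_ofReal hF (((rs_tf hc hr).sq hF).ig_mul hF (g := fun p => (rs N r).shr p ^ 2)
    (hF.sm_shr.continuousOn.pow 2)) fun _ _ => by positivity, rs_mu]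
  refine le_trans (lintegral_mono_ae ?_) (setLIntegral_le_lintegral (ball 0 r) _)
  filter_upwards [ae_restrict_mem measurableSet_ball] with x hb
  rw [rs_shr (mem_ball_zero_iff.1 hb)]
  refine ENNReal.ofReal_le_ofReal (mul_le_mul_of_nonneg_right ?_ (Gau.gau_pos 0 one_pos x).le)
  exact mul_le_of_le_one_left (sq_nonneg _) (cut2_sq_le _ _)

theorem rat_of (hc : R.Ctx N Λ G m ρ₀) : Gau.Rat (N.mu 0) (max Λ 0) := fun y s hs =>
  (hc.ar 0 y s hs).trans (ENNReal.ofReal_le_ofReal (by gcongr; exact le_max_left _ _))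

theorem one_le (hc : R.Ctx N Λ G m ρ₀) (hr : 1 ≤ r) :
    IG (rs N r) 0 (fun p => cut2 r p ^ 2) ≤ Gau.C0 * max Λ 0 := by
  have hF := rs_reg hc.reg r
  have i1 := Gau.int_gau (le_max_right _ _) (rat_of hc) 0 one_pos
  have i2 : Integrable (fun x => cut2 r (x, 0) ^ 2 * gau 0 1 x) ((rs N r).mu 0) :=
    (rs_tf hc hr).ig_sq hF
  refine le_trans ?_ (Gau.integral_gau_le (le_max_right _ _) (rat_of hc) 0 one_pos)
  rw [IG]
  rw [rs_mu] at i2 ⊢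
  exact (integral_mono i2 i1.integrableOn fun x => mul_le_of_le_one_left
    (Gau.gau_pos 0 one_pos x).le (cut2_sq_le _ _)).trans
    (setIntegral_le_integral i1 (Eventually.of_forall fun x => (Gau.gau_pos 0 one_pos x).le))

theorem tail_le (hc : R.Ctx N Λ G m ρ₀) (hN : R.Nr N G m ρ₀ r ρ₁ δ) (hδ : δ ≤ 1) (hr : 3 ≤ r)
    {w : ℝ} (hw : Real.exp (-(r - 2) ^ 2 / 8) ≤ w) :
    IG (rs N r) 0 (fun p => ht (sd G 0) p ^ 2 * (rs N r).gam (cut2 r) (cut2 r) p) ≤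
      32 * cutK * max Λ 0 * w ^ 2 := by
  have hF := rs_reg hc.reg r
  have hχ := rs_tf hc (by linarith : 1 ≤ r)
  have hK := cutK_nonneg
  have hL : 0 ≤ max Λ 0 := le_max_right _ _
  have hm : (rs N r).mu 0 univ ≤ ENNReal.ofReal (max Λ 0 * r ^ 2) := by
    rw [rs_mu, Measure.restrict_apply_univ]; exact rat_of hc 0 r (by linarith)
  have : IsFiniteMeasure ((rs N r).mu 0) := ⟨hm.trans_lt ENNReal.ofReal_lt_top⟩
  have h1 : IG (rs N r) 0 (fun p => ht (sd G 0) p ^ 2 * (rs N r).gam (cut2 r) (cut2 r) p) ≤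
      ∫ _x, cutK * Real.exp (-(r - 1) ^ 2 / 4) ∂(rs N r).mu 0 := by
    refine integral_mono_ae ((hχ.gam hF hχ.sm).ig_mul' hF (g := fun p => ht (sd G 0) p ^ 2)
      ((rs_sm hc hN).continuousOn.pow 2)) (integrable_const _) ((Hu.ae_sl hF 0).mono fun x hx => ?_)
    by_cases h : ‖x‖ < r - 1
    · simp only [gam_cut2_zero hF hx (by linarith) (Or.inl h), mul_zero, zero_mul]; positivity
    have a1 := (hN x (rs_mem.1 hx).1 (rs_mem.1 hx).2).2.2.trans hδ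
    have a2 : ht (sd G 0) (x, 0) ^ 2 ≤ 1 := (sq_le_one_iff_abs_le_one _).2 a1
    have a3 := gam_cut2_le hF hx (r := r) (by linarith)
    have a4 : gau 0 1 x ≤ Real.exp (-(r - 1) ^ 2 / 4) := by
      refine (Gw_eq (x, 0)).le.trans ((mul_le_of_le_one_left (Real.exp_pos _).le
        (inv_le_one_of_one_le₀ (by linarith [Real.pi_gt_three]))).trans (Real.exp_le_exp.2 ?_))
      have : (r - 1) ^ 2 ≤ ‖x‖ ^ 2 := pow_le_pow_left₀ (by linarith) (not_lt.1 h) 2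
      simp only; linarith
    exact mul_le_mul ((mul_le_of_le_one_left (Mv.gam_self_nonneg _ _) a2).trans a3) a4
      (Gau.gau_pos 0 one_pos x).le hK
  rw [integral_const, smul_eq_mul] at h1
  have h2 : ((rs N r).mu 0).real univ ≤ max Λ 0 * r ^ 2 :=
    ENNReal.toReal_le_of_le_ofReal (by positivity) hm
  have h3 : r ^ 2 * Real.exp (-(r - 1) ^ 2 / 4) ≤ 32 * Real.exp (-(r - 2) ^ 2 / 8) ^ 2 := by
    have e : Real.exp (-(r - 2) ^ 2 / 8) ^ 2 =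
        Real.exp ((2 * r - 3) / 4) * Real.exp (-(r - 1) ^ 2 / 4) := by
      rw [← Real.exp_add, sq, ← Real.exp_add]; congr 1; ring
    have := Real.quadratic_le_exp_of_nonneg (show 0 ≤ (2 * r - 3) / 4 by linarith)
    rw [e, ← mul_assoc]
    exact mul_le_mul_of_nonneg_right (by nlinarith) (Real.exp_pos _).le
  have h4 : Real.exp (-(r - 2) ^ 2 / 8) ^ 2 ≤ w ^ 2 := pow_le_pow_left₀ (Real.exp_pos _).le hw 2
  calc _ ≤ max Λ 0 * r ^ 2 * (cutK * Real.exp (-(r - 1) ^ 2 / 4)) :=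
        h1.trans (mul_le_mul_of_nonneg_right h2 (by positivity))
    _ = cutK * max Λ 0 * (r ^ 2 * Real.exp (-(r - 1) ^ 2 / 4)) := by ring
    _ ≤ cutK * max Λ 0 * (32 * w ^ 2) := mul_le_mul_of_nonneg_left (by linarith) (by positivity)
    _ = _ := by ring

theorem exists_rad {n : ℕ} {f : Fin n → E → ℝ} (h : ∀ i, HasCompactSupport (f i)) :
    ∃ Rf : ℝ, 0 < Rf ∧ ∀ i y, Rf ≤ ‖y‖ → f i y = 0 := by
  obtain ⟨Rf, h0, hR⟩ := (isCompact_iUnion fun i => (h i).isCompact).isBounded.subset_ball_lt 0 0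
  refine ⟨Rf, h0, fun i y hy => image_eq_zero_of_notMem_tsupport fun hm => ?_⟩
  exact absurd (mem_ball_zero_iff.1 (hR (mem_iUnion.2 ⟨i, hm⟩))) (not_lt.2 hy)

theorem C2_zero {M : ℝ} (hM : 0 ≤ M) : C2 (fun _ => 0) M := by
  have e : gradient (fun _ : E => (0 : ℝ)) = fun _ => 0 := gradient_fun_const' _
  refine ⟨continuous_const, e ▸ continuous_const, fun _ => by simpa using hM,
    fun _ => by simpa [e] using hM, fun _ _ => ?_, fun _ _ => ?_⟩ <;> simp [e] <;> positivity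

set_option maxHeartbeats 800000 in
/-- coercivity on `N` -/
theorem coerN (hCo : CoDS) {S : Mv} {n : ℕ} {f : Fin n → E → ℝ} (hS : S.IsShr) (hf : Cons S f)
    (h0 : 0 < ρ₀) (h1 : 0 < ρ₁) {Rf : ℝ} : ∃ k κ δ₀ R₁ : ℝ, 0 < k ∧ 0 < κ ∧ 0 < δ₀ ∧
    ∀ (N G : Mv) (Λ m r R' δ : ℝ) (u : ST → ℝ), R.Ctx N Λ G m ρ₀ → 0 < δ → δ ≤ δ₀ → R₁ ≤ R' →
      R₁ ≤ r →      R.Nr N G m ρ₀ r ρ₁ δ → Near G S R' δ → R.Hd N S R' δ → Tf (rs N r) 0 u →
      (∀ x, (x, 0) ∈ (rs N r).M → Rf ≤ ‖x‖ → ∀ i, G.fv (f i) (pr G 0 x, 0) = 0) →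
      k * IG (rs N r) 0 (e1 (rs N r) u) ≤ IG (rs N r) 0 ((rs N r).gam u u) -
        IG (rs N r) 0 (fun p => u p ^ 2 * (G.A2 (pr G 0 p.1, 0) + 1 / 2)) +
        κ⁻¹ * ∑ i, (∫ x, G.fv (f i) (pr G 0 x, 0) * u (x, 0) ∂(rs N r).mu 0) ^ 2 +
        IG (rs N r) 0 fun p => u p ^ 2 * (rs N r).shr p ^ 2 := by
  obtain ⟨M, hM0, hM⟩ := exists_C2_fin hf.sm hf.cs
  obtain ⟨C, hC, hD⟩ := hCo ρ₀ M h0
  obtain ⟨κ, hκ, hco⟩ := coer hS hf (K := (2 / ρ₀) ^ 2) (sq_nonneg _)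
  obtain ⟨θ, R₀, k, hθ, hR₀, hk, huc⟩ := uc_of_loc hκ (K := (2 / ρ₀) ^ 2 + 1 / 2) (by positivity)
  obtain ⟨R, hR1, hR2⟩ : ∃ R, R₀ ≤ R ∧ Rf ≤ R := ⟨max R₀ Rf, le_max_left _ _, le_max_right _ _⟩
  obtain ⟨δ₁, hδ₁, hc1⟩ := hco (R + 1) ρ₁ h1
  refine ⟨k, κ, min 1 (δ₁ / (C + 2)), R + 4, hk, hκ, by positivity,
    fun N G Λ m r R' δ u hc d0 hδ hR' hr hN hG hH hu hψ => ?_⟩
  have hF := rs_reg hc.reg r
  have d1 : δ ≤ 1 := hδ.trans (min_le_left _ _)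
  have d2 : δ * (C + 2) ≤ δ₁ := (le_div_iff₀ (by positivity)).1 (hδ.trans (min_le_right _ _))
  have d3 : C * δ + 2 * δ ≤ δ₁ := by linarith
  have d4 : 0 < C * δ := mul_pos hC d0
  have cq := rs_cont hc hN hc.greg.sm_A2.continuousOn
  have hw : Tf (rs N r) 0 fun p => cut (R + 1) p * u p := hu.mul' hF (sm_cut _ _)
  refine huc (rs N r) 0 R (fun p => G.A2 (pr G 0 p.1, 0) + 1 / 2) u _ hF hR1
    (cq.add continuousOn_const) hu (fun x hx => ?_) (by positivity) ?_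
  · linarith [ctx_A2 hc h0 (rs_tube hc hN hx)]
  have hT : ∀ x ∈ (rs N r).sl 0 ∩ ball 0 (R + 1 + 2), x ∈ tube G 0 (ball 0 m) ρ₀ :=
    fun x hx => rs_tube hc hN (p := (x, 0)) hx.1
  have key := hc1 (rs N r) 0 (fun x => G.A2 (pr G 0 x, 0)) (fun i x => G.fv (f i) (pr G 0 x, 0)) hF
    (fun y hy hb => rs_mem.2 ⟨(ctx_closed hc).closure_subset
      (closure_mono (show (rs N r).sl 0 ⊆ N.sl 0 from fun z hz => (rs_mem.1 hz).1) hy), by linarith [mem_ball_zero_iff.1 hb]⟩)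
    (fun y hy _ z hz => (hN y (rs_mem.1 hy).1 (rs_mem.1 hy).2).1 z (rs_mem.1 hz).1)
    (fun y hy hb => by
      obtain ⟨x, a1, a2⟩ := hH.2 y hy (by linarith)
      have a3 := norm_le_norm_add_norm_sub' x y
      rw [← dist_eq_norm] at a3
      refine ⟨x, rs_mem.2 ⟨a1, by linarith⟩, ?_⟩
      rw [dist_comm]; linarith)
    (fun x hx hb => by
      have a0 := rs_tube hc hN (p := (x, 0)) hx
      have a1 := (hN x (rs_mem.1 hx).1 (rs_mem.1 hx).2).2.2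
      rw [← dist_pr hc.greg (ctx_reach hc) a0] at a1
      have a2 := pr_mem hc.greg (ctx_reach hc) a0
      have a3 := norm_le_norm_add_norm_sub' (pr G 0 x) x
      rw [← dist_eq_norm, dist_comm] at a3
      obtain ⟨y, b1, b2, b3, b4⟩ := hG.1 _ a2 (by linarith)
      have b5 := fun i => hD G S (f i) δ _ y hc.greg hS.reg (hM i) d1 a2 b1
        (pr_reach hc.greg (ctx_reach hc) a0) b2 b3 b4
      have hg := (hD G S _ δ _ y hc.greg hS.reg (C2_zero hM0) d1 a2 b1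
          (pr_reach hc.greg (ctx_reach hc) a0) b2 b3 b4).1
      refine ⟨by rw [abs_of_nonneg (Mv.A2_nonneg _)]; exact ctx_A2 hc h0 a0, y, b1, ?_, ?_,
        fun i => (b5 i).2.trans (by linarith)⟩
      · linarith [dist_triangle x (pr G 0 x) y]
      · exact hg.trans (by linarith))
    (((ctx_tub hc).cont_pull hc.greg.sm_A2.continuousOn).mono hT)
    (fun i => ((ctx_tub hc).cont_pull (cont_fv0 hc.greg (hf.sm i))).mono hT)
    _ hw.sm (fun x _ hx => mul_eq_zero_of_left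
      (cut_zero (r := R + 1) (p := (x, 0)) (by linarith) hx.le) _)
  have e1' : ∀ i, ∫ x, G.fv (f i) (pr G 0 x, 0) * (cut (R + 1) (x, 0) * u (x, 0)) ∂(rs N r).mu 0 =
      ∫ x, G.fv (f i) (pr G 0 x, 0) * u (x, 0) ∂(rs N r).mu 0 := fun i =>
    Hu.int_congr hF fun x hx => by
      by_cases h : Rf ≤ ‖x‖
      · rw [hψ x hx h i, zero_mul, zero_mul]
      · rw [cut_one (r := R + 1) (p := (x, 0)) (by linarith)
          (by simp only; linarith [not_le.1 h]), one_mul]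
  simp only [e1'] at key
  have e2 : IG (rs N r) 0 (fun p => (rs N r).gam (fun p => cut (R + 1) p * u p)
      (fun p => cut (R + 1) p * u p) p - (cut (R + 1) p * u p) ^ 2 *
        (G.A2 (pr G 0 p.1, 0) + 1 / 2)) = _ :=
    IG_sub (hw.ig_gam hF hw.sm) ((hw.sq hF).ig_mul hF (cq.add continuousOn_const))
  have e3 := IG_e1 hF hw
  have n2 := IG_nonneg (t := 0) hF (f := (rs N r).gam (fun p => cut (R + 1) p * u p)
    fun p => cut (R + 1) p * u p) fun _ _ => Mv.gam_self_nonneg _ _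
  have n3 := IG_nonneg (t := 0) hF (f := e1 (rs N r) fun p => cut (R + 1) p * u p)
    fun _ _ => e1_nonneg _ _ _
  rw [← e2]
  simp only [mul_comm (_ + 1 / 2 : ℝ)] at key
  change κ * IG (rs N r) 0 (e1 (rs N r) fun p => cut (R + 1) p * u p) ≤ IG (rs N r) 0 (fun p =>
    (rs N r).gam (fun p => cut (R + 1) p * u p) (fun p => cut (R + 1) p * u p) p -
      (cut (R + 1) p * u p) ^ 2 * (G.A2 (pr G 0 p.1, 0) + 1 / 2)) + _ at key
  rw [e3, mul_add] at key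
  linarith [mul_nonneg hθ.le n3, mul_nonneg hκ.le n2]

set_option maxHeartbeats 1600000 in
theorem statS_of (hMom : MomS) (hLag : LagS) (hCo : CoDS) (hDual : DualS) : R.StatS := by
  intro S Λ ρ₀ ρ₁ n f hS _ hf h0 h01 h1
  obtain ⟨M, hM0, hM⟩ := exists_C2_fin hf.sm hf.cs
  obtain ⟨Rf, hRf, hf0⟩ := exists_rad hf.cs
  obtain ⟨k, κ, δ₁, R₁, hk, hκ, hδ₁, hco⟩ := coerN hCo hS hf h0 h1 (Rf := Rf + 1)
  obtain ⟨δ₂, R₂, Cd, hδ₂, hCd, hdu⟩ := hDual S Λ ρ₀ ρ₁ n f hS hf h0 h01 h1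
  obtain ⟨D, hD⟩ : ∃ D, D = 2 * Cd ^ 2 := ⟨_, rfl⟩
  have D0 : 0 ≤ D := by rw [hD]; positivity
  obtain ⟨A, hA⟩ : ∃ A, A = Gau.C0 * max Λ 0 := ⟨_, rfl⟩
  have L0' : 0 ≤ max Λ 0 := le_max_right _ _
  have A0 : 0 ≤ A := by rw [hA]; exact mul_nonneg Gau.C0_nonneg L0'
  obtain ⟨K, hK⟩ : ∃ K, K = 6 * (2 / ρ₀) ^ 3 + 2 * (2 / ρ₀) := ⟨_, rfl⟩
  have K0 : 0 < K := by rw [hK]; positivity
  obtain ⟨l, hl, s1⟩ : ∃ l : ℝ, 0 < l ∧ n * l * D ≤ k / 16 :=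
    ⟨k / (16 * (n * D + 1)), by positivity, by
      rw [mul_right_comm, ← mul_div_assoc, div_le_div_iff₀ (by positivity) (by positivity)]
      nlinarith⟩
  obtain ⟨σ, hσ, s2⟩ : ∃ σ : ℝ, 0 < σ ∧ n * σ * (1 / l + κ⁻¹) ≤ k / 16 :=
    ⟨k / (16 * (n * (1 / l + κ⁻¹) + 1)), by positivity, by
      rw [mul_right_comm, ← mul_div_assoc, div_le_div_iff₀ (by positivity) (by positivity)]
      nlinarith⟩
  obtain ⟨ε, hε, s4⟩ : ∃ ε : ℝ, 0 < ε ∧ 4 / k * (ε ^ 2 * D * A) ≤ k / 16 :=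
    ⟨k / (8 * (D * A + 1)), by positivity, by
      have e : 4 / k * ((k / (8 * (D * A + 1))) ^ 2 * D * A) =
          k / 16 * (D * A / (D * A + 1) ^ 2) := by field_simp; ring
      rw [e]
      refine mul_le_of_le_one_right (by positivity) ((div_le_one (by positivity)).2 ?_)
      nlinarith [mul_nonneg D0 A0]⟩
  obtain ⟨δ₃, hδ₃, hmo⟩ := hMom Λ ρ₀ ρ₁ M Rf σ h0 h01 h1 hRf hσ
  obtain ⟨δ₄, hδ₄, hla⟩ := hLag n ρ₀ M Rf ε h0 hRf hε
  obtain ⟨δ, hδ, d1, d2, d3, d4, d5, d6⟩ : ∃ δ : ℝ, 0 < δ ∧ δ ≤ δ₁ ∧ δ ≤ δ₂ ∧ δ ≤ δ₃ ∧ δ ≤ δ₄ ∧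
      δ ≤ ρ₀ / 4 ∧ δ ≤ min k 1 / (32 * K) := by
    have := lt_min hk one_pos
    refine ⟨min (min (min δ₁ δ₂) (min δ₃ δ₄)) (min (ρ₀ / 4) (min k 1 / (32 * K))), by positivity,
      ?_, ?_, ?_, ?_, ?_, ?_⟩ <;> simp
  rw [le_div_iff₀ (by positivity)] at d6
  have s3 : 2 * K * δ ≤ k / 16 := by linarith [min_le_left k 1]
  have s5 : 2 * K * δ ≤ 1 := by linarith [min_le_right k 1]
  obtain ⟨B, hB⟩ : ∃ B, B = 2 / k * (k / 8 + 2 * n * (1 / l + κ⁻¹) + 4 / k * A + 2 / k +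
    64 * cutK * max Λ 0 + 1) := ⟨_, rfl⟩
  have cK := cutK_nonneg
  have B0 : 0 < B := by rw [hB]; positivity
  refine ⟨δ, max (max R₁ (R₂ + 1)) (Rf + 4), B + Cd * (1 + √B), hδ, by positivity,
    fun N G m r w c hc hr hm hN hG hH hL hP hd hw _ => ?_⟩
  have r1 : R₁ ≤ max (max R₁ (R₂ + 1)) (Rf + 4) := by simp
  have r2 : R₂ + 1 ≤ max (max R₁ (R₂ + 1)) (Rf + 4) := by simp
  have r3 : Rf + 4 ≤ max (max R₁ (R₂ + 1)) (Rf + 4) := by simp
  generalize max (max R₁ (R₂ + 1)) (Rf + 4) = R' at *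
  have hF := rs_reg hc.reg r
  have hr1 : 1 ≤ r := by linarith
  have hχ := rs_tf hc hr1
  have hv := rs_sm hc hN
  have hu : Tf (rs N r) 0 fun p => cut2 r p * ht (sd G 0) p := hχ.mul hF hv
  have w0 : 0 < w := (Real.exp_pos _).trans_le hw
  have pt : ∀ x, (x, (0 : ℝ)) ∈ (rs N r).M → _ := fun x hx =>
    have a0 := rs_tube hc hN (p := (x, 0)) hx
    hla G m w f c x (pr G 0 x) hc.greg hL (pr_mem hc.greg (ctx_reach hc) a0)
      (mem_ball_zero_iff.1 (pr_memU hc.greg (ctx_reach hc) a0))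
      (pr_reach hc.greg (ctx_reach hc) a0)
      ((dist_pr hc.greg (ctx_reach hc) a0).trans_le
        ((hN x (rs_mem.1 hx).1 (rs_mem.1 hx).2).2.2.trans d4)) hM hf0
  have c1 := hco N G Λ m r R' δ _ hc hδ d1 r1 (r1.trans hr) hN hG hH hu fun x hx h => (pt x hx).2 h
  have c2 := core (t := 0) hF (χ := cut2 r) (v := ht (sd G 0))
    (q := fun p => G.A2 (pr G 0 p.1, 0) + 1 / 2) (s := fun p => G.shr (pr G 0 p.1, 0))
    (cs := cs G 0 (pr G 0) (rs N r)) (ψ := fun i p => G.fv (f i) (pr G 0 p.1, 0)) (c := c)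
    (δ := δ) (e := w + ε * ‖c‖) hk K0.le hχ hv
    ((rs_cont hc hN hc.greg.sm_A2.continuousOn).add continuousOn_const)
    (rs_cont hc hN hc.greg.sm_shr.continuousOn)
    (fun i => rs_cont hc hN (cont_fv0 hc.greg (hf.sm i))) fun x hx => by
      have a0 := rs_tube hc hN (p := (x, 0)) hx
      have a1 := (hN x (rs_mem.1 hx).1 (rs_mem.1 hx).2).2.2
      refine ⟨cut2_sq_le _ _, a1, (ctx_tub hc).cs_sq_le hc.greg hF hx a0, ?_, (pt x hx).1,
        fun i => ?_⟩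
      · refine ((ctx_tub hc).key hc.greg hF hx a0 (κ := 2 / ρ₀) (by positivity) (ctx_A2 hc h0 a0)
          ?_).trans ?_
        · rw [← mul_div_assoc, div_le_iff₀ h0]
          change |sd G 0 x| * 2 ≤ _
          linarith
        · have b1 := (rs N r).gam_self_nonneg (ht (sd G 0)) (x, 0)
          have b2 : 0 ≤ (2 / ρ₀) ^ 3 * (rs N r).gam (ht (sd G 0)) (ht (sd G 0)) (x, 0) := by
            positivity
          have b3 : 0 ≤ 2 / ρ₀ * ht (sd G 0) (x, 0) ^ 2 := by positivity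
          rw [hK, e1]; linarith
      · by_cases h : Rf + 1 ≤ ‖x‖
        · exact Or.inl ((pt x hx).2 h i)
        · exact Or.inr (cut2_one hr1 (by simp only; linarith [not_le.1 h]))
  have n1 := IG_nonneg (t := 0) hF (f := e1 (rs N r) fun p => cut2 r p * ht (sd G 0) p)
    fun _ _ => e1_nonneg _ _ _
  have hH1 := fun s hs => H1_le hc hN hr1 (s := s) hs
  have c3 : ∀ i, (∫ x, G.fv (f i) (pr G 0 x, 0) * (cut2 r (x, 0) * ht (sd G 0) (x, 0))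
      ∂(rs N r).mu 0) ^ 2 ≤ 2 * w ^ 2 +
        σ * IG (rs N r) 0 (e1 (rs N r) fun p => cut2 r p * ht (sd G 0) p) := fun i => by
    have a1 := hmo N G S m r R' δ w (f i) hδ d3 hc r3 hr hm hN hG hH (hM i) (hf0 i) (hP i)
    have a2 := ENNReal.toReal_le_of_le_ofReal n1 (hH1 (Rf + 1) (by linarith))
    have a3 : ∫ x, G.fv (f i) (pr G 0 x, 0) * (cut2 r (x, 0) * ht (sd G 0) (x, 0))
        ∂(rs N r).mu 0 = ∫ x in ball 0 (Rf + 1), sd G 0 x * G.fv (f i) (pr G 0 x, 0) ∂N.mu 0 := by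
      rw [rs_mu, setIntegral_eq_of_subset_of_ae_sdiff_eq_zero measurableSet_ball.nullMeasurableSet
        (ball_subset_ball (by linarith : Rf + 1 ≤ r)) ((Hu.ae_sl hc.reg 0).mono fun x hx h => by
          rw [(pt x (rs_mem.2 ⟨hx, mem_ball_zero_iff.1 h.1⟩)).2
            (not_lt.1 fun h' => h.2 (mem_ball_zero_iff.2 h')) i, zero_mul])]
      refine setIntegral_congr_fun measurableSet_ball fun x hx => ?_
      rw [cut2_one hr1 (by simp only; linarith [mem_ball_zero_iff.1 hx]), one_mul, mul_comm]; rfl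
    rw [a3]
    exact a1.trans (by gcongr)
  have c4 := hdu N G m r R' (r - 1) δ w _ c hc hδ d2 (by linarith) hm (by linarith) (by linarith)
    hN hG hH hL hd w0 (Real.sqrt_nonneg _) (by rw [Real.sq_sqrt n1]; exact hH1 _ le_rfl)
  have c5 := phi_le hc hr1 hd
  have c6 := tail_le hc hN (by linarith) (by linarith) hw
  have c7 : IG (rs N r) 0 (fun p => (cut2 r p * ht (sd G 0) p) ^ 2 * (rs N r).shr p ^ 2) ≤
      IG (rs N r) 0 fun p => cut2 r p ^ 2 * (rs N r).shr p ^ 2 :=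
    IG_mono hF ((hu.sq hF).ig_mul hF (g := fun p => (rs N r).shr p ^ 2)
      (hF.sm_shr.continuousOn.pow 2)) ((hχ.sq hF).ig_mul hF (g := fun p => (rs N r).shr p ^ 2)
      (hF.sm_shr.continuousOn.pow 2)) fun x hx => by
        have a1 := (hN x (rs_mem.1 hx).1 (rs_mem.1 hx).2).2.2
        have a2 : ht (sd G 0) (x, 0) ^ 2 ≤ 1 :=
          (sq_le_one_iff_abs_le_one _).2 (a1.trans (by linarith))
        rw [mul_pow]
        exact mul_le_mul_of_nonneg_right (mul_le_of_le_one_right (sq_nonneg _) a2) (sq_nonneg _)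
  have n2 := IG_nonneg (t := 0) hF (f := fun p => cut2 r p ^ 2) fun _ _ => sq_nonneg _
  have n3 := IG_nonneg (t := 0) hF (f := fun p => ht (sd G 0) p ^ 2 *
    (rs N r).gam (cut2 r) (cut2 r) p) fun _ _ => mul_nonneg (sq_nonneg _) (Mv.gam_self_nonneg _ _)
  have c8 := one_le hc hr1
  rw [← hA] at c8
  have c9 := hH1 _ le_rfl
  generalize IG (rs N r) 0 (e1 (rs N r) fun p => cut2 r p * ht (sd G 0) p) = En at *
  have c10 : ‖c‖ ^ 2 ≤ D * (w ^ 2 + En) := by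
    have := pow_le_pow_left₀ (norm_nonneg c) c4 2
    have e := Real.sq_sqrt n1
    have e2 : 2 * Cd ^ 2 * (w ^ 2 + √En ^ 2) = (Cd * (w + √En)) ^ 2 + Cd ^ 2 * (w - √En) ^ 2 := by
      ring
    rw [e] at e2
    rw [hD, e2]
    linarith [mul_nonneg (sq_nonneg Cd) (sq_nonneg (w - √En))]
  have fin := absorb hk hκ hl D0 n1 n2 c1 c2 c3 c10 c8 s1 s2 s3 s4
  have hE : En ≤ B * w ^ 2 := by
    have a1 := mul_le_mul_of_nonneg_left c5 (show 0 ≤ 2 / k by positivity)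
    have a2 := mul_le_mul_of_nonneg_right (show 1 + 2 * K * δ ≤ 2 by linarith) n3
    have a3 : k / 2 * (B * w ^ 2) = (k / 8 + 2 * n * (1 / l + κ⁻¹) + 4 / k * A + 2 / k +
      64 * cutK * max Λ 0 + 1) * w ^ 2 := by rw [hB]; field_simp
    refine le_of_mul_le_mul_left ?_ (show 0 < k / 2 by positivity)
    linarith
  have hs : √En ≤ √B * w := by
    have := Real.sqrt_le_sqrt hE
    rwa [Real.sqrt_mul B0.le, Real.sqrt_sq w0.le] at this
  refine ⟨c4.trans ?_, c9.trans (ENNReal.ofReal_le_ofReal (hE.trans ?_))⟩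
  · linarith [mul_le_mul_of_nonneg_left hs hCd.le, mul_pos B0 w0]
  · have : 0 ≤ Cd * (1 + √B) * w ^ 2 := by positivity
    linarith

theorem dualS_holds : DualS := fun _ Λ _ _ _ _ hS hf h0 h01 h1 => by
  obtain ⟨δ, R₁, C, a, b, h⟩ := Tb.dual hS hf h0 h01 h1 Λ
  exact ⟨δ, R₁, C, a, b, fun N G m r R' r' δ' w M c hc _ h2 h3 _ => h N G m r R' r' δ' w M c hc h2 h3⟩

theorem statS_holds : R.StatS := statS_of momS_holds lagS_holds coDS_holds dualS_holds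

end Crest.Agent.N250.Sg

end
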