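import Crest.Agent.N250.R.Stm
import Crest.Agent.N250.Tb.Pair

/-!
# Row 250, static Gaussian estimate (helper9): three sub-leaves of `R.StatS`
-/

set_option autoImplicit false
open MeasureTheory Set Filter Topology
open scoped ContDiff InnerProductSpace
open Crest.GeometryTopology.MCF

noncomputable section

namespace Crest.Agent.N250.Sg

/-- MOMENT: the pairings of the height are quadratically small -/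
def MomS : Prop := ∀ Λ ρ₀ ρ₁ M Rf σ : ℝ, 0 < ρ₀ → ρ₀ ≤ 1 → 0 < ρ₁ → 0 < Rf → 0 < σ →
  ∃ δ₀ : ℝ, 0 < δ₀ ∧ ∀ (N G S : Mv) (m r R₁ δ w : ℝ) (f : E → ℝ), 0 < δ → δ ≤ δ₀ →
    R.Ctx N Λ G m ρ₀ → Rf + 4 ≤ R₁ → R₁ ≤ r → r + 3 ≤ m → R.Nr N G m ρ₀ r ρ₁ δ →
    Near G S R₁ δ → R.Hd N S R₁ δ → Tb.C2 f M → (∀ y, Rf ≤ ‖y‖ → f y = 0) →
    |∫ x, f x ∂G.mu 0 - ∫ x, f x ∂N.mu 0| ≤ w →
    (∫ x in Metric.ball 0 (Rf + 1), Tb.sd G 0 x * G.fv f (Tb.pr G 0 x, 0) ∂N.mu 0) ^ 2 ≤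
      2 * w ^ 2 + σ * (R.H1 N G (Rf + 1)).toReal

/-- the Lagrange equation of the model, read at the points of the tube -/
def LagS : Prop := ∀ (n : ℕ) (ρ₀ M Rf ε : ℝ), 0 < ρ₀ → 0 < Rf → 0 < ε →
  ∃ δ₀ : ℝ, 0 < δ₀ ∧ ∀ (G : Mv) (m w : ℝ) (f : Fin n → E → ℝ) (c : Fin n → ℝ) (x y : E),
    G.Reg → R.Lag G f c m w → y ∈ G.sl 0 → ‖y‖ < m → G.Reach (y, 0) ρ₀ → dist x y ≤ δ₀ →
    (∀ i, Tb.C2 (f i) M) → (∀ i z, Rf ≤ ‖z‖ → f i z = 0) →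
    |G.shr (y, 0) * gau 0 1 x - ∑ i, c i * G.fv (f i) (y, 0)| ≤ (w + ε * ‖c‖) * gau 0 1 x ∧
      (Rf + 1 ≤ ‖x‖ → ∀ i, G.fv (f i) (y, 0) = 0)

/-- the data of the model are close to the data of the shrinker -/
def CoDS : Prop := ∀ ρ₀ M : ℝ, 0 < ρ₀ → ∃ C : ℝ, 0 < C ∧
  ∀ (G S : Mv) (f : E → ℝ) (δ : ℝ) (x y : E), G.Reg → S.Reg → Tb.C2 f M → δ ≤ 1 →
    x ∈ G.sl 0 → y ∈ S.sl 0 → G.Reach (x, 0) ρ₀ → dist x y < δ →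
    ‖G.n (x, 0) - S.n (y, 0)‖ < δ → (∀ a b, |G.A a b (x, 0) - S.A a b (y, 0)| < δ) →
    |G.A2 (x, 0) - S.A2 (y, 0)| ≤ C * δ ∧ |G.fv f (x, 0) - S.fv f (y, 0)| ≤ C * δ

end Crest.Agent.N250.Sg

end
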